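import Vale.Agent.P265.H336.Susp

/-!
P216, block [CPN]: the Alexander-Spanier cohomology of complex projective space, realised as the
set of matrices `v vᴴ` with `v` a unit vector.
-/

open Set Matrix Vale.Agent.P265.AS
open scoped ComplexConjugate

namespace Vale.Agent.P216.H391

/-- ambient space of matrices -/
abbrev Mt (N : ℕ) : Type := Fin N → Fin N → ℂ

/-- squared norm -/
noncomputable def ns {N : ℕ} (v : Fin N → ℂ) : ℝ := ∑ i, ‖v i‖ ^ 2

/-- the matrix `v vᴴ` -/
noncomputable def prj {N : ℕ} (v : Fin N → ℂ) : Mt N := fun i j => v i * conj (v j)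

/-- complex projective space of complex dimension `N - 1`: the set of rank one projections -/
def CP (N : ℕ) : Set (Mt N) := {P | ∃ v : Fin N → ℂ, ns v = 1 ∧ P = prj v}

/-- the projection on the line spanned by `v` -/
noncomputable def npr {N : ℕ} (v : Fin N → ℂ) : Mt N :=
  fun i j => v i * conj (v j) / ((ns v : ℝ) : ℂ)

theorem ns_nonneg {N : ℕ} (v : Fin N → ℂ) : 0 ≤ ns v := Finset.sum_nonneg fun _ _ => by positivity

theorem ns_smul {N : ℕ} (c : ℂ) (v : Fin N → ℂ) : ns (c • v) = ‖c‖ ^ 2 * ns v := by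
  simp only [ns, Pi.smul_apply, smul_eq_mul, norm_mul, mul_pow, Finset.mul_sum]

theorem npr_mem {N : ℕ} {v : Fin N → ℂ} (hv : 0 < ns v) : npr v ∈ CP N := by
  have hs : (0 : ℝ) < √(ns v) := Real.sqrt_pos.2 hv
  have h2 : √(ns v) ^ 2 = ns v := Real.sq_sqrt hv.le
  refine ⟨((√(ns v))⁻¹ : ℝ) • v, ?_, ?_⟩
  · have : (((√(ns v))⁻¹ : ℝ) • v : Fin N → ℂ) = (((√(ns v))⁻¹ : ℝ) : ℂ) • v := by
      funext i; simp
    rw [this, ns_smul, Complex.norm_real, Real.norm_of_nonneg (by positivity), inv_pow, h2]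
    field_simp
  · funext i j
    simp only [npr, prj, Pi.smul_apply, Complex.real_smul, map_mul, Complex.conj_ofReal]
    have h3 : ((√(ns v) : ℝ) : ℂ) ^ 2 = ((ns v : ℝ) : ℂ) := by exact_mod_cast h2
    have h4 : ((√(ns v) : ℝ) : ℂ) ≠ 0 := by exact_mod_cast hs.ne'
    rw [← h3, Complex.ofReal_inv]
    field_simp

theorem npr_smul {N : ℕ} {c : ℂ} (hc : c ≠ 0) (v : Fin N → ℂ) : npr (c • v) = npr v := by
  funext i j
  have hc' : conj c ≠ 0 := (map_ne_zero _).2 hc
  have h1 : ((‖c‖ ^ 2 : ℝ) : ℂ) = c * conj c := by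
    rw [Complex.mul_conj, Complex.normSq_eq_norm_sq]
  by_cases h0 : ((ns v : ℝ) : ℂ) = 0
  · simp only [npr, ns_smul]
    rw [Complex.ofReal_mul, h0]
    simp
  · simp only [npr, ns_smul, Pi.smul_apply, smul_eq_mul, map_mul]
    rw [Complex.ofReal_mul, h1]
    field_simp

theorem npr_of_ns {N : ℕ} {v : Fin N → ℂ} (hv : ns v = 1) : npr v = prj v := by
  funext i j
  simp [npr, prj, hv]

theorem prj_diag {N : ℕ} (v : Fin N → ℂ) (i : Fin N) : prj v i i = ((‖v i‖ ^ 2 : ℝ) : ℂ) := by
  rw [prj, Complex.mul_conj, Complex.normSq_eq_norm_sq]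

theorem norm_prj {N : ℕ} (v : Fin N → ℂ) (i j : Fin N) : ‖prj v i j‖ = ‖v i‖ * ‖v j‖ := by
  rw [prj, norm_mul, RCLike.norm_conj]

theorem continuous_ns {N : ℕ} : Continuous (ns : (Fin N → ℂ) → ℝ) := by
  unfold ns; fun_prop

theorem continuous_prj {N : ℕ} : Continuous (prj : (Fin N → ℂ) → Mt N) := by
  unfold prj
  refine continuous_pi fun i => continuous_pi fun j => ?_
  exact (continuous_apply i).mul (Complex.continuous_conj.comp (continuous_apply j))

theorem isCompact_CP (N : ℕ) : IsCompact (CP N) := by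
  have h1 : IsCompact {v : Fin N → ℂ | ns v = 1} := by
    refine Metric.isCompact_of_isClosed_isBounded (isClosed_eq continuous_ns continuous_const) ?_
    refine (Metric.isBounded_closedBall (x := (0 : Fin N → ℂ)) (r := 1)).subset fun v hv => ?_
    rw [mem_closedBall_zero_iff, pi_norm_le_iff_of_nonneg zero_le_one]
    intro i
    have h2 : ‖v i‖ ^ 2 ≤ ns v :=
      Finset.single_le_sum (f := fun i => ‖v i‖ ^ 2) (fun _ _ => by positivity) (Finset.mem_univ i)
    rw [show ns v = 1 from hv] at h2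
    nlinarith [norm_nonneg (v i)]
  have h2 : CP N = prj '' {v : Fin N → ℂ | ns v = 1} := by
    ext P
    constructor
    · rintro ⟨v, hv, rfl⟩
      exact ⟨v, hv, rfl⟩
    · rintro ⟨v, hv, rfl⟩
      exact ⟨v, hv, rfl⟩
  rw [h2]
  exact h1.image continuous_prj

section step

variable {m : ℕ}

/-- the last diagonal entry -/
noncomputable def tt (P : Mt (m + 1)) : ℝ := (P (Fin.last m) (Fin.last m)).re

theorem tt_prj (v : Fin (m + 1) → ℂ) : tt (prj v) = ‖v (Fin.last m)‖ ^ 2 := by
  rw [tt, prj_diag, Complex.ofReal_re]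

theorem continuous_tt : Continuous (tt : Mt (m + 1) → ℝ) := by
  unfold tt
  exact Complex.continuous_re.comp ((continuous_apply _).comp (continuous_apply _))

theorem ns_succ (v : Fin (m + 1) → ℂ) :
    ns v = ∑ i : Fin m, ‖v i.castSucc‖ ^ 2 + ‖v (Fin.last m)‖ ^ 2 := Fin.sum_univ_castSucc _

theorem tt_mem {P : Mt (m + 1)} (hP : P ∈ CP (m + 1)) : 0 ≤ tt P ∧ tt P ≤ 1 := by
  obtain ⟨v, hv, rfl⟩ := hP
  rw [tt_prj]
  refine ⟨by positivity, ?_⟩
  have := ns_succ v
  have h2 : 0 ≤ ∑ i : Fin m, ‖v i.castSucc‖ ^ 2 := Finset.sum_nonneg fun _ _ => by positivity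
  linarith

/-- hyperplane at infinity -/
def AA (m : ℕ) : Set (Mt (m + 1)) := {P ∈ CP (m + 1) | tt P = 0}
/-- a neighbourhood of the hyperplane at infinity -/
def BB (m : ℕ) : Set (Mt (m + 1)) := {P ∈ CP (m + 1) | tt P ≤ 1 / 2}

/-- cut-off -/
noncomputable def ph (t : ℝ) : ℝ := max 0 (min 1 (3 - 4 * t))

theorem ph_mem (t : ℝ) : 0 ≤ ph t ∧ ph t ≤ 1 :=
  ⟨le_max_left _ _, max_le zero_le_one (min_le_left _ _)⟩

theorem ph_one {t : ℝ} (ht : t ≤ 1 / 2) : ph t = 1 := by
  rw [ph, min_eq_left (by linarith), max_eq_right zero_le_one]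

theorem ph_zero {t : ℝ} (ht : 3 / 4 ≤ t) : ph t = 0 := by
  rw [ph, max_eq_left ((min_le_right _ _).trans (by linarith))]

theorem continuous_ph : Continuous ph := by unfold ph; fun_prop

/-- scale factor -/
noncomputable def lam (s t : ℝ) : ℝ := 1 - s * ph t

/-- the diagonal matrix -/
noncomputable def dg (c : ℝ) (i : Fin (m + 1)) : ℝ := if i = Fin.last m then c else 1

/-- the denominator -/
noncomputable def den (s t : ℝ) : ℝ := 1 - (1 - lam s t ^ 2) * t

/-- the deformation to the hyperplane at infinity -/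
noncomputable def defo (s : ℝ) (P : Mt (m + 1)) : Mt (m + 1) := fun i j =>
  ((dg (lam s (tt P)) i * dg (lam s (tt P)) j : ℝ) : ℂ) * P i j / ((den s (tt P) : ℝ) : ℂ)

theorem den_pos {s t : ℝ} (hs : s ∈ Icc (0 : ℝ) 1) (h0 : 0 ≤ t) : 0 < den s t := by
  rcases le_total (3 / 4) t with h | h
  · rw [den, lam, ph_zero h]; norm_num
  · have h2 := ph_mem t
    have h3 : 0 ≤ lam s t := by
      have : s * ph t ≤ 1 * 1 := mul_le_mul hs.2 h2.2 h2.1 zero_le_one
      rw [lam]; linarith
    rw [den]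
    nlinarith [sq_nonneg (lam s t), mul_nonneg (sq_nonneg (lam s t)) h0]

theorem defo_prj {s : ℝ} (v : Fin (m + 1) → ℂ) (hv : ns v = 1) :
    defo s (prj v) = npr (fun i => ((dg (lam s (tt (prj v))) i : ℝ) : ℂ) * v i) := by
  set c := lam s (tt (prj v)) with hc
  have h1 : ns (fun i => ((dg c i : ℝ) : ℂ) * v i) = den s (tt (prj v)) := by
    rw [ns_succ, den, ← hc, tt_prj]
    have h2 := ns_succ v
    rw [hv] at h2
    have h3 : ∀ i : Fin m, dg c i.castSucc = 1 := fun i => by
      rw [dg, if_neg (Fin.castSucc_lt_last i).ne]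
    have h4 : dg c (Fin.last m) = c := by rw [dg, if_pos rfl]
    simp only [h3, h4, Complex.ofReal_one, one_mul, norm_mul, Complex.norm_real, mul_pow,
      Real.norm_eq_abs, sq_abs]
    linarith
  funext i j
  simp only [defo, npr, h1, ← hc, prj, map_mul, Complex.conj_ofReal, Complex.ofReal_mul]
  ring

theorem defo_mem {s : ℝ} (hs : s ∈ Icc (0 : ℝ) 1) {P : Mt (m + 1)} (hP : P ∈ CP (m + 1)) :
    defo s P ∈ CP (m + 1) := by
  have ht := tt_mem hP
  obtain ⟨v, hv, rfl⟩ := hP
  rw [defo_prj v hv]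
  apply npr_mem
  set c := lam s (tt (prj v)) with hc
  have h1 : ns (fun i => ((dg c i : ℝ) : ℂ) * v i) = den s (tt (prj v)) := by
    rw [ns_succ, den, ← hc, tt_prj]
    have h2 := ns_succ v
    rw [hv] at h2
    have h3 : ∀ i : Fin m, dg c i.castSucc = 1 := fun i => by
      rw [dg, if_neg (Fin.castSucc_lt_last i).ne]
    have h4 : dg c (Fin.last m) = c := by rw [dg, if_pos rfl]
    simp only [h3, h4, Complex.ofReal_one, one_mul, norm_mul, Complex.norm_real, mul_pow,
      Real.norm_eq_abs, sq_abs]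
    linarith
  rw [h1]
  exact den_pos hs ht.1

theorem tt_defo (s : ℝ) (P : Mt (m + 1)) :
    tt (defo s P) = lam s (tt P) ^ 2 * tt P / den s (tt P) := by
  have h4 : dg (m := m) (lam s (tt P)) (Fin.last m) = lam s (tt P) := by rw [dg, if_pos rfl]
  simp only [tt, defo] at *
  rw [h4, Complex.div_ofReal_re, Complex.re_ofReal_mul]
  ring

theorem defo_zero (P : Mt (m + 1)) : defo 0 P = P := by
  have h1 : lam 0 (tt P) = 1 := by rw [lam]; ring
  have h2 : den 0 (tt P) = 1 := by rw [den, h1]; ring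
  have h3 : ∀ i : Fin (m + 1), dg (m := m) 1 i = 1 := fun i => by
    rw [dg]; split_ifs <;> rfl
  funext i j
  simp only [defo, h1, h2, h3]
  simp

theorem continuousOn_defo : ContinuousOn (fun q : ℝ × Mt (m + 1) => defo q.1 q.2)
    (Icc (0 : ℝ) 1 ×ˢ CP (m + 1)) := by
  have ht : Continuous fun q : ℝ × Mt (m + 1) => tt q.2 := continuous_tt.comp continuous_snd
  have hl : Continuous fun q : ℝ × Mt (m + 1) => lam q.1 (tt q.2) := by
    unfold lam
    exact continuous_const.sub (continuous_fst.mul (continuous_ph.comp ht))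
  have hd : Continuous fun q : ℝ × Mt (m + 1) => den q.1 (tt q.2) := by
    unfold den
    exact continuous_const.sub ((continuous_const.sub (hl.pow 2)).mul ht)
  have hg : ∀ i : Fin (m + 1), Continuous fun q : ℝ × Mt (m + 1) => dg (lam q.1 (tt q.2)) i := by
    intro i
    unfold dg
    by_cases h : i = Fin.last m
    · simp only [if_pos h]; exact hl
    · simp only [if_neg h]; exact continuous_const
  refine continuousOn_pi.2 fun i => continuousOn_pi.2 fun j => ?_
  refine ContinuousOn.div ?_ (Complex.continuous_ofReal.comp hd).continuousOn ?_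
  · refine Continuous.continuousOn ?_
    refine (Complex.continuous_ofReal.comp ((hg i).mul (hg j))).mul ?_
    exact (continuous_apply j).comp ((continuous_apply i).comp continuous_snd)
  · rintro ⟨s, P⟩ ⟨hs, hP⟩
    have := tt_mem hP
    simp only [ne_eq, Complex.ofReal_eq_zero]
    exact (den_pos hs this.1).ne'

theorem hh_step1 {k : Type} [Field k] (χ : k) (p : ℕ) :
    hh id χ (CP (m + 1)) (AA m) p ≤ hh id χ (CP (m + 1)) (BB m) p := by
  have hH : IsHtpy id id (CP (m + 1)) (AA m) (CP (m + 1)) (AA m) defo :=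
    ⟨fun s hs x hx => defo_mem hs hx, fun s hs x hx => ⟨defo_mem hs hx.1, by
      rw [tt_defo, hx.2]; simp⟩,
    fun _ _ _ _ => rfl, uc_of_compact (isCompact_CP _) continuousOn_defo⟩
  refine hh_le_of_push hH ?_ (fun x hx => hx.1) (fun x _ => defo_zero x) (fun x hx => ?_) χ p
  · exact fun x hx => ⟨hx.1, by rw [hx.2]; norm_num⟩
  · refine ⟨defo_mem ⟨zero_le_one, le_rfl⟩ hx.1, ?_⟩
    rw [tt_defo, lam, ph_one hx.2]; simp

/-- the affine cell -/
def LL (m : ℕ) : Set (Mt (m + 1)) :=
  {P ∈ CP (m + 1) | 1 / (4 + 8 * (m : ℝ)) ≤ tt P ∧ ∀ i : Fin m,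
    |(P i.castSucc (Fin.last m)).re| ≤ 2 * tt P ∧ |(P i.castSucc (Fin.last m)).im| ≤ 2 * tt P}

theorem hh_step2 {k : Type} [Field k] (χ : k) (p : ℕ) :
    hh id χ (CP (m + 1)) (BB m) p ≤ hh id χ (LL m) (LL m ∩ BB m) p := by
  refine hh_le_excision (L := LL m) (fun x hx => hx.1) (fun _ => Iff.rfl) (δ := 1 / 8)
    (by norm_num) (fun P hP hPB Q hQ hPQ => ?_) χ p
  refine ⟨hQ, ?_, fun i => ?_⟩
  · have h1 : 1 / 2 < tt P := by
      by_contra h; exact hPB ⟨hP, not_lt.1 h⟩
    have h2 : |tt P - tt Q| ≤ dist P Q := by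
      have h3 : dist (P (Fin.last m) (Fin.last m)) (Q (Fin.last m) (Fin.last m)) ≤ dist P Q :=
        (dist_le_pi_dist _ _ _).trans (dist_le_pi_dist _ _ _)
      refine le_trans ?_ h3
      rw [dist_eq_norm, tt, tt, ← Complex.sub_re]
      exact Complex.abs_re_le_norm _
    have h4 : 1 / (4 + 8 * (m : ℝ)) ≤ 1 / 4 :=
      one_div_le_one_div_of_le (by norm_num) (by linarith [Nat.cast_nonneg (α := ℝ) m])
    have := abs_le.1 h2
    linarith [this.1, this.2]
  · have h1 : 1 / 2 < tt P := by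
      by_contra h; exact hPB ⟨hP, not_lt.1 h⟩
    have h2 : |tt P - tt Q| ≤ dist P Q := by
      have h3 : dist (P (Fin.last m) (Fin.last m)) (Q (Fin.last m) (Fin.last m)) ≤ dist P Q :=
        (dist_le_pi_dist _ _ _).trans (dist_le_pi_dist _ _ _)
      refine le_trans ?_ h3
      rw [dist_eq_norm, tt, tt, ← Complex.sub_re]
      exact Complex.abs_re_le_norm _
    have h5 : ‖Q i.castSucc (Fin.last m)‖ ≤ 1 / 2 + dist P Q := by
      have h3 : dist (P i.castSucc (Fin.last m)) (Q i.castSucc (Fin.last m)) ≤ dist P Q :=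
        (dist_le_pi_dist _ _ _).trans (dist_le_pi_dist _ _ _)
      have h4 : ‖P i.castSucc (Fin.last m)‖ ≤ 1 / 2 := by
        obtain ⟨v, hv, rfl⟩ := hP
        rw [norm_prj]
        have h6 := ns_succ v
        rw [hv] at h6
        have h7 : ‖v i.castSucc‖ ^ 2 ≤ ∑ i : Fin m, ‖v i.castSucc‖ ^ 2 :=
          Finset.single_le_sum (f := fun i : Fin m => ‖v i.castSucc‖ ^ 2)
            (fun _ _ => by positivity) (Finset.mem_univ i)
        nlinarith [sq_nonneg (‖v i.castSucc‖ - ‖v (Fin.last m)‖)]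
      rw [dist_eq_norm] at h3
      have h8 := norm_sub_norm_le (Q i.castSucc (Fin.last m)) (P i.castSucc (Fin.last m))
      rw [norm_sub_rev] at h8
      linarith
    have := abs_le.1 h2
    exact ⟨(Complex.abs_re_le_norm _).trans (by linarith [this.1, this.2]),
      (Complex.abs_im_le_norm _).trans (by linarith [this.1, this.2])⟩

/-- affine coordinates -/
noncomputable def kap (P : Mt (m + 1)) (l : Fin (m * 2)) : ℝ :=
  if (finProdFinEquiv.symm l).2 = 0 then
    (P (finProdFinEquiv.symm l).1.castSucc (Fin.last m)).re / tt P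
  else (P (finProdFinEquiv.symm l).1.castSucc (Fin.last m)).im / tt P

/-- complex coordinates of a real vector -/
noncomputable def ww (u : Fin (m * 2) → ℝ) (i : Fin m) : ℂ :=
  (u (finProdFinEquiv (i, 0)) : ℂ) + (u (finProdFinEquiv (i, 1)) : ℂ) * Complex.I

/-- the homogeneous vector -/
noncomputable def vv (u : Fin (m * 2) → ℝ) : Fin (m + 1) → ℂ := Fin.snoc (ww u) 1

theorem vv_castSucc (u : Fin (m * 2) → ℝ) (i : Fin m) : vv u i.castSucc = ww u i := by
  rw [vv, Fin.snoc_castSucc]

theorem vv_last (u : Fin (m * 2) → ℝ) : vv u (Fin.last m) = 1 := by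
  rw [vv, Fin.snoc_last]

theorem norm_ww (u : Fin (m * 2) → ℝ) (i : Fin m) :
    ‖ww u i‖ ^ 2 = u (finProdFinEquiv (i, 0)) ^ 2 + u (finProdFinEquiv (i, 1)) ^ 2 := by
  rw [← Complex.normSq_eq_norm_sq, ww, Complex.normSq_add_mul_I]

theorem sum_sq (u : Fin (m * 2) → ℝ) : ∑ l, u l ^ 2 = ∑ i, ‖ww u i‖ ^ 2 := by
  rw [← finProdFinEquiv.sum_comp, Fintype.sum_prod_type]
  refine Finset.sum_congr rfl fun i _ => ?_
  rw [Fin.sum_univ_two, norm_ww]

theorem ns_vv (u : Fin (m * 2) → ℝ) : ns (vv u) = ∑ l, u l ^ 2 + 1 := by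
  rw [ns_succ, sum_sq]
  simp only [vv_castSucc, vv_last]
  simp

/-- inverse of the affine coordinates -/
noncomputable def the (u : Fin (m * 2) → ℝ) : Mt (m + 1) := npr (vv u)

theorem ns_vv_pos (u : Fin (m * 2) → ℝ) : 1 ≤ ns (vv u) := by
  rw [ns_vv]
  have : 0 ≤ ∑ l, u l ^ 2 := Finset.sum_nonneg fun _ _ => by positivity
  linarith

theorem tt_the (u : Fin (m * 2) → ℝ) : tt (the u) = 1 / ns (vv u) := by
  rw [tt, the, npr, vv_last, Complex.div_ofReal_re]
  simp

theorem the_entry (u : Fin (m * 2) → ℝ) (i : Fin m) :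
    the u i.castSucc (Fin.last m) = ww u i / ((ns (vv u) : ℝ) : ℂ) := by
  rw [the, npr, vv_last, vv_castSucc]
  simp

theorem the_kap {P : Mt (m + 1)} (hP : P ∈ CP (m + 1)) (ht : 0 < tt P) : the (kap P) = P := by
  obtain ⟨v, hv, rfl⟩ := hP
  rw [tt_prj] at ht
  have h0 : v (Fin.last m) ≠ 0 := by
    intro h; rw [h] at ht; simp at ht
  have h1 : vv (kap (prj v)) = (v (Fin.last m))⁻¹ • v := by
    funext i
    refine Fin.lastCases ?_ (fun i => ?_) i
    · rw [vv_last, Pi.smul_apply, smul_eq_mul, inv_mul_cancel₀ h0]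
    · rw [vv_castSucc, Pi.smul_apply, smul_eq_mul, ww]
      have e1 : kap (prj v) (finProdFinEquiv (i, 0)) =
          (prj v i.castSucc (Fin.last m)).re / tt (prj v) := by simp [kap]
      have e2 : kap (prj v) (finProdFinEquiv (i, 1)) =
          (prj v i.castSucc (Fin.last m)).im / tt (prj v) := by simp [kap]
      rw [e1, e2, tt_prj]
      have e3 : (prj v i.castSucc (Fin.last m)) =
        ((prj v i.castSucc (Fin.last m)).re : ℂ) + (prj v i.castSucc (Fin.last m)).im * Complex.I :=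
        (Complex.re_add_im _).symm
      have e4 : ((‖v (Fin.last m)‖ ^ 2 : ℝ) : ℂ) = v (Fin.last m) * conj (v (Fin.last m)) := by
        rw [Complex.mul_conj, Complex.normSq_eq_norm_sq]
      have h5 : conj (v (Fin.last m)) ≠ 0 := (map_ne_zero _).2 h0
      rw [Complex.ofReal_div, Complex.ofReal_div, div_mul_eq_mul_div, ← add_div, ← e3, e4, prj]
      field_simp
  rw [the, h1, npr_smul (inv_ne_zero h0), npr_of_ns hv]

theorem hh_step3 {k : Type} [Field k] (χ : k) (p : ℕ) :
    hh id χ (LL m) (LL m ∩ BB m) p ≤ hh id χ (cube (m * 2) 2) (ballOut (m * 2) 2 1) p := by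
  have hc0 : (0 : ℝ) < 1 / (4 + 8 * (m : ℝ)) := by positivity
  have hkap : ∀ P ∈ LL m, kap P ∈ cube (m * 2) 2 := by
    intro P hP l
    have ht : 0 < tt P := hc0.trans_le hP.2.1
    rw [kap]
    split_ifs
    · rw [abs_div, abs_of_pos ht, div_le_iff₀ ht]
      exact (hP.2.2 _).1
    · rw [abs_div, abs_of_pos ht, div_le_iff₀ ht]
      exact (hP.2.2 _).2
  have hthe : ∀ u ∈ cube (m * 2) 2, the u ∈ LL m := by
    intro u hu
    have hS := ns_vv_pos u
    refine ⟨npr_mem (by linarith), ?_, fun i => ?_⟩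
    · rw [tt_the]
      refine one_div_le_one_div_of_le (by linarith) ?_
      rw [ns_vv]
      have h1 : ∑ l, u l ^ 2 ≤ ∑ _l : Fin (m * 2), (4 : ℝ) := by
        refine Finset.sum_le_sum fun l _ => ?_
        have := hu l
        nlinarith [abs_nonneg (u l), sq_abs (u l)]
      rw [Finset.sum_const, Finset.card_univ, Fintype.card_fin, nsmul_eq_mul] at h1
      push_cast at h1
      linarith
    · rw [tt_the, the_entry, Complex.div_ofReal_re, Complex.div_ofReal_im, abs_div, abs_div,
        abs_of_pos (by linarith : (0 : ℝ) < ns (vv u))]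
      have e1 : (ww u i).re = u (finProdFinEquiv (i, 0)) := by simp [ww]
      have e2 : (ww u i).im = u (finProdFinEquiv (i, 1)) := by simp [ww]
      rw [e1, e2, mul_one_div]
      constructor
      · exact div_le_div_of_nonneg_right (hu _) (by linarith)
      · exact div_le_div_of_nonneg_right (hu _) (by linarith)
  have hK : IsCompact {P : Mt (m + 1) | P ∈ CP (m + 1) ∧ 1 / (4 + 8 * (m : ℝ)) ≤ tt P} :=
    (isCompact_CP _).inter_right (isClosed_le continuous_const continuous_tt)
  have hφ : IsMapP id id (LL m) (LL m ∩ BB m) (cube (m * 2) 2) (ballOut (m * 2) 2 1) kap := by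
    refine ⟨hkap, fun P hP => ⟨hkap P hP.1, ?_⟩, fun _ _ => rfl, ?_⟩
    · -- the shell
      have ht : 0 < tt P := hc0.trans_le hP.1.2.1
      have h1 := the_kap hP.1.1 ht
      have h2 : tt P = 1 / ns (vv (kap P)) := by rw [← tt_the, h1]
      have h3 := ns_vv_pos (kap P)
      have h4 : 1 / ns (vv (kap P)) ≤ 1 / 2 := h2 ▸ hP.2.2
      have h5 : 2 ≤ ns (vv (kap P)) := (one_div_le_one_div (by linarith) (by norm_num)).1 h4
      rw [ns_vv] at h5
      linarith
    · -- uniform continuity of `kap`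
      have hcont : ContinuousOn (kap : Mt (m + 1) → _)
          {P : Mt (m + 1) | P ∈ CP (m + 1) ∧ 1 / (4 + 8 * (m : ℝ)) ≤ tt P} := by
        refine continuousOn_pi.2 fun l => ?_
        have hne : ∀ P ∈ {P : Mt (m + 1) | P ∈ CP (m + 1) ∧ 1 / (4 + 8 * (m : ℝ)) ≤ tt P},
            tt P ≠ 0 := fun P hP => (hc0.trans_le hP.2).ne'
        have hent : Continuous fun P : Mt (m + 1) =>
            P (finProdFinEquiv.symm l).1.castSucc (Fin.last m) :=
          (continuous_apply _).comp (continuous_apply _)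
        by_cases h : (finProdFinEquiv.symm l).2 = 0
        · simp only [kap, if_pos h]
          exact (Complex.continuous_re.comp hent).continuousOn.div continuous_tt.continuousOn hne
        · simp only [kap, if_neg h]
          exact (Complex.continuous_im.comp hent).continuousOn.div continuous_tt.continuousOn hne
      intro ε hε
      obtain ⟨δ, hδ, h⟩ := uc_of_compact' hK hcont ε hε
      exact ⟨δ, hδ, fun x hx y hy => h x ⟨hx.1, hx.2.1⟩ y ⟨hy.1, hy.2.1⟩⟩
  have hψ : IsMapP id id (cube (m * 2) 2) (ballOut (m * 2) 2 1) (LL m) (LL m ∩ BB m) the := by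
    refine ⟨hthe, fun u hu => ⟨hthe u hu.1, (hthe u hu.1).1, ?_⟩, fun _ _ => rfl, ?_⟩
    · -- the shell
      have hS := ns_vv_pos u
      rw [tt_the]
      refine one_div_le_one_div_of_le (by norm_num) ?_
      rw [ns_vv]
      linarith [hu.2]
    · refine uc_of_compact' (isCompact_cube _ _) (Continuous.continuousOn ?_)
      have hvv : Continuous (vv : (Fin (m * 2) → ℝ) → _) := by
        refine continuous_pi fun i => ?_
        refine Fin.lastCases ?_ (fun i => ?_) i
        · simp only [vv_last]; exact continuous_const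
        · simp only [vv_castSucc, ww]; fun_prop
      refine continuous_pi fun i => continuous_pi fun j => ?_
      refine Continuous.div ?_ (Complex.continuous_ofReal.comp (continuous_ns.comp hvv))
        fun u => ?_
      · exact ((continuous_apply i).comp hvv).mul
          (Complex.continuous_conj.comp ((continuous_apply j).comp hvv))
      · have := ns_vv_pos u
        have h2 : ns (vv u) ≠ 0 := by linarith
        simpa using h2
  exact hh_le_of_section hφ hψ inter_subset_left (fun u hu => hu.1)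
    (fun P hP => the_kap hP.1 (hc0.trans_le hP.2.1)) χ p

/-- extension by zero -/
noncomputable def ext0 (P : Mt m) : Mt (m + 1) := fun i j =>
  Fin.lastCases 0 (fun i => Fin.lastCases 0 (fun j => P i j) j) i

theorem ext0_cast (P : Mt m) (i j : Fin m) : ext0 P i.castSucc j.castSucc = P i j := by
  simp [ext0]

theorem ext0_last (P : Mt m) (j : Fin (m + 1)) : ext0 P (Fin.last m) j = 0 := by
  simp [ext0]

theorem ext0_last' (P : Mt m) (i : Fin m) : ext0 P i.castSucc (Fin.last m) = 0 := by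
  simp [ext0]

theorem ext0_prj (v : Fin m → ℂ) : ext0 (prj v) = prj (Fin.snoc v 0 : Fin (m + 1) → ℂ) := by
  funext i j
  refine Fin.lastCases ?_ (fun i => ?_) i
  · rw [ext0_last, prj, Fin.snoc_last, zero_mul]
  · refine Fin.lastCases ?_ (fun j => ?_) j
    · rw [ext0_last', prj, Fin.snoc_last, map_zero, mul_zero]
    · rw [ext0_cast, prj, prj, Fin.snoc_castSucc, Fin.snoc_castSucc]

theorem ext0_mem {P : Mt m} (hP : P ∈ CP m) : ext0 P ∈ AA m := by
  obtain ⟨v, hv, rfl⟩ := hP
  rw [ext0_prj]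
  refine ⟨⟨_, ?_, rfl⟩, ?_⟩
  · rw [ns_succ]
    simp only [Fin.snoc_castSucc, Fin.snoc_last]
    rw [norm_zero]
    simpa [ns] using hv
  · rw [tt_prj, Fin.snoc_last]; simp

theorem hh_step5 {k : Type} [Field k] (χ : k) (p : ℕ) :
    hh id χ (AA m) ∅ p ≤ hh id χ (CP m) ∅ p := by
  have hlast : ∀ P ∈ AA m, ∃ v : Fin (m + 1) → ℂ, ns v = 1 ∧ P = prj v ∧ v (Fin.last m) = 0 := by
    rintro P ⟨⟨v, hv, rfl⟩, h⟩
    rw [tt_prj] at h
    exact ⟨v, hv, rfl, by simpa using h⟩
  refine hh_le_of_section (φ := fun P i j => P (Fin.castSucc i) (Fin.castSucc j)) (ψ := ext0)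
    ⟨fun P hP => ?_, fun _ h => h.elim, fun _ _ => rfl, ?_⟩
    ⟨fun P hP => ext0_mem hP, fun _ h => h.elim, fun _ _ => rfl, ?_⟩
    (empty_subset _) (empty_subset _) (fun P hP => ?_) χ p
  · obtain ⟨v, hv, rfl, h0⟩ := hlast P hP
    refine ⟨fun i => v i.castSucc, ?_, rfl⟩
    rw [ns_succ, h0] at hv
    simpa [ns] using hv
  · have hK : IsCompact (AA m) :=
      (isCompact_CP _).inter_right (isClosed_eq continuous_tt continuous_const)
    refine uc_of_compact' hK (Continuous.continuousOn ?_)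
    exact continuous_pi fun i => continuous_pi fun j =>
      (continuous_apply _).comp (continuous_apply _)
  · refine uc_of_compact' (isCompact_CP _) (Continuous.continuousOn ?_)
    refine continuous_pi fun i => continuous_pi fun j => ?_
    refine Fin.lastCases ?_ (fun i => ?_) i
    · simp only [ext0_last]; exact continuous_const
    · refine Fin.lastCases ?_ (fun j => ?_) j
      · simp only [ext0_last']; exact continuous_const
      · simp only [ext0_cast]; exact (continuous_apply _).comp (continuous_apply _)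
  · obtain ⟨v, hv, rfl, h0⟩ := hlast P hP
    have : (fun i j : Fin m => prj v i.castSucc j.castSucc) = prj fun i => v i.castSucc := rfl
    simp only [this]
    rw [ext0_prj]
    congr 1
    funext i
    refine Fin.lastCases ?_ (fun i => ?_) i
    · rw [Fin.snoc_last, h0]
    · rw [Fin.snoc_castSucc]

end step

/-- **The cohomology of complex projective space** (upper bounds). -/
theorem hh_CP_le {k : Type} [Field k] (χ : k) (N p : ℕ) :
    hh id χ (CP N) ∅ p ≤ if Even p ∧ p < 2 * N then 1 else 0 := by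
  induction N with
  | zero =>
    have : CP 0 = ∅ := by
      ext P
      simp only [CP, mem_ofPred_eq, mem_empty_iff_false, iff_false]
      rintro ⟨v, hv, -⟩
      simp [ns] at hv
    rw [this, hh_self]
    exact zero_le
  | succ m ih =>
    have h1 : hh id χ (CP (m + 1)) ∅ p ≤
        hh id χ (AA m) ∅ p + hh id χ (CP (m + 1)) (AA m) p :=
      hh_triple (empty_subset _) (fun P hP => hP.1) (fun _ => Iff.rfl) χ p
    have h2 : hh id χ (CP (m + 1)) (AA m) p ≤ if p = m * 2 then 1 else 0 :=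
      (hh_step1 χ p).trans <| (hh_step2 χ p).trans <| (hh_step3 χ p).trans <|
        (hh_ball_le (m * 2) (by norm_num) one_pos (by norm_num) χ p).trans <|
        hh_cube_le (m * 2) (Real.sqrt_pos.2 (by positivity)) (by
          rw [Real.sqrt_le_left (by norm_num)]
          have h3 : (1 : ℝ) / (((m * 2 : ℕ) : ℝ) + 1) ≤ 1 := by
            rw [div_le_one (by positivity)]
            have := Nat.cast_nonneg (α := ℝ) (m * 2)
            linarith
          linarith) χ p
    refine h1.trans ((add_le_add ((hh_step5 χ p).trans ih) h2).trans ?_)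
    by_cases hp : p = m * 2
    · rw [if_neg (by omega), if_pos hp, if_pos ⟨⟨m, by omega⟩, by omega⟩, zero_add]
    · rw [if_neg hp, add_zero]
      split_ifs with h3 h4
      · exact le_rfl
      · exact absurd ⟨h3.1, by omega⟩ h4
      · exact zero_le
      · exact le_rfl

theorem hh_CP_odd {k : Type} [Field k] (χ : k) (N : ℕ) {p : ℕ} (hp : Odd p) :
    hh id χ (CP N) ∅ p = 0 := by
  have := hh_CP_le χ N p
  rw [if_neg (fun h => (Nat.not_even_iff_odd.2 hp) h.1)] at this
  exact le_antisymm this zero_le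

theorem CP_nonempty (N : ℕ) : (CP (N + 1)).Nonempty :=
  ⟨_, Pi.single 0 1, by
    rw [ns, Finset.sum_eq_single 0]
    · simp
    · intro b _ hb; rw [Pi.single_eq_of_ne hb]; simp
    · simp, rfl⟩

/-- the constants are a nonzero class of degree `0` -/
theorem one_le_hh_zero {E : Type} [PseudoMetricSpace E] {k : Type} [Field k] {X : Set E}
    (hX : X.Nonempty) : 1 ≤ hh id (1 : k) X ∅ 0 := by
  rw [Cardinal.one_le_iff_ne_zero, ne_eq, hh_eq_zero_iff]
  intro h
  obtain ⟨x, hx⟩ := hX
  have h1 : (fun _ => 1 : (Fin (0 + 1) → E) → k) ∈ Zs id (1 : k) X ∅ 0 := by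
    refine ⟨fun _ _ => by simp, 1, one_pos, fun y _ => ?_, fun y hy => (hy.1 0).elim⟩
    rw [d_succ_apply, d_zero_apply]; simp
  obtain ⟨b, -, ε, hε, h2, h3⟩ := h h1
  have h4 := h2 (fun _ => x) ⟨fun _ => hx, fun _ _ => by simpa using hε⟩
  have h5 := h3 (vecTail fun _ : Fin 1 => x) ⟨fun i => i.elim0, fun i => i.elim0⟩
  have h6 : (1 : k) = b (vecTail fun _ : Fin 1 => x) := h4
  rw [h5] at h6
  exact one_ne_zero h6

end Vale.Agent.P216.H391
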