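import Mathlib.Analysis.Calculus.ContDiff.Basic
import Mathlib.Analysis.Calculus.ContDiff.FiniteDimension
import Mathlib.Analysis.Calculus.MeanValue
import Mathlib.Analysis.Calculus.FDeriv.Symmetric
import Mathlib.Analysis.Convex.Deriv
import Mathlib.LinearAlgebra.QuadraticForm.Basic
import Mathlib.Topology.Algebra.Module.FiniteDimension

/-!
P216, block [GM2]: the calculus input.  A function `F (y, z)`, `C^2` near `0`, critical along
`z = 0` with nondegenerate normal Hessian at `0`, is uniformly convex in `z₊` and uniformly concave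
in `z₋` on a small box.
-/

open Set Filter Topology Metric

namespace Vale.Agent.P216.H391

/-! ### One variable -/

theorem convexOn_Icc {ψ ψ₁ ψ₂ : ℝ → ℝ} (h1 : ∀ t ∈ Icc (0 : ℝ) 1, HasDerivAt ψ (ψ₁ t) t)
    (h2 : ∀ t ∈ Icc (0 : ℝ) 1, HasDerivAt ψ₁ (ψ₂ t) t) (h3 : ∀ t ∈ Icc (0 : ℝ) 1, 0 ≤ ψ₂ t) :
    ConvexOn ℝ (Icc (0 : ℝ) 1) ψ := by
  have hd : ∀ t ∈ Ioo (0 : ℝ) 1, deriv ψ =ᶠ[𝓝 t] ψ₁ := fun t ht =>
    Filter.eventually_of_mem (isOpen_Ioo.mem_nhds ht) fun s hs => (h1 s (Ioo_subset_Icc_self hs)).deriv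
  refine convexOn_of_deriv2_nonneg (convex_Icc 0 1)
    (fun t ht => (h1 t ht).continuousAt.continuousWithinAt) ?_ ?_ ?_
  · rw [interior_Icc]
    exact fun t ht => (h1 t (Ioo_subset_Icc_self ht)).differentiableAt.differentiableWithinAt
  · rw [interior_Icc]
    exact fun t ht => ((h2 t (Ioo_subset_Icc_self ht)).congr_of_eventuallyEq
      (hd t ht)).differentiableAt.differentiableWithinAt
  · rw [interior_Icc]
    intro t ht
    have := ((h2 t (Ioo_subset_Icc_self ht)).congr_of_eventuallyEq (hd t ht)).deriv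
    simp only [Function.iterate_succ, Function.iterate_zero, Function.comp_apply, id_eq]
    rw [this]
    exact h3 t (Ioo_subset_Icc_self ht)

theorem tangent_le {ψ ψ₁ ψ₂ : ℝ → ℝ} (h1 : ∀ t ∈ Icc (0 : ℝ) 1, HasDerivAt ψ (ψ₁ t) t)
    (h2 : ∀ t ∈ Icc (0 : ℝ) 1, HasDerivAt ψ₁ (ψ₂ t) t) (h3 : ∀ t ∈ Icc (0 : ℝ) 1, 0 ≤ ψ₂ t) :
    ψ 0 + ψ₁ 0 ≤ ψ 1 := by
  have h := (convexOn_Icc h1 h2 h3).le_slope_of_hasDerivAt (x := 0) (y := 1)
    (left_mem_Icc.2 zero_le_one) (right_mem_Icc.2 zero_le_one) one_pos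
    (h1 0 (left_mem_Icc.2 zero_le_one))
  rw [slope_def_field] at h
  simp only [sub_zero, div_one] at h
  linarith

theorem chord_le {ψ ψ₁ ψ₂ : ℝ → ℝ} (h1 : ∀ t ∈ Icc (0 : ℝ) 1, HasDerivAt ψ (ψ₁ t) t)
    (h2 : ∀ t ∈ Icc (0 : ℝ) 1, HasDerivAt ψ₁ (ψ₂ t) t) (h3 : ∀ t ∈ Icc (0 : ℝ) 1, 0 ≤ ψ₂ t)
    {b : ℝ} (hb : b ∈ Icc (0 : ℝ) 1) : ψ b ≤ (1 - b) * ψ 0 + b * ψ 1 := by
  have h := (convexOn_Icc h1 h2 h3).2 (left_mem_Icc.2 zero_le_one) (right_mem_Icc.2 zero_le_one)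
    (sub_nonneg.2 hb.2) hb.1 (by ring)
  simpa using h

/-! ### Splitting a nondegenerate form -/

/-- sum of squares -/
def sq {p : ℕ} (x : Fin p → ℝ) : ℝ := ∑ i, x i ^ 2

theorem sq_nonneg' {p : ℕ} (x : Fin p → ℝ) : 0 ≤ sq x := Finset.sum_nonneg fun _ _ => sq_nonneg _

theorem norm_sq_le {p : ℕ} (x : Fin p → ℝ) : ‖x‖ ^ 2 ≤ sq x := by
  have h : ‖x‖ ≤ √(sq x) := by
    rw [pi_norm_le_iff_of_nonneg (Real.sqrt_nonneg _)]
    intro i
    rw [Real.norm_eq_abs, ← Real.sqrt_sq_eq_abs]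
    exact Real.sqrt_le_sqrt
      (Finset.single_le_sum (f := fun i => x i ^ 2) (fun _ _ => sq_nonneg _) (Finset.mem_univ i))
  calc ‖x‖ ^ 2 ≤ √(sq x) ^ 2 := by gcongr
    _ = sq x := Real.sq_sqrt (sq_nonneg' x)

/-- a positive family on a finite type is bounded below -/
theorem exists_pos_le {ι : Type*} [Fintype ι] (f : ι → ℝ) (hf : ∀ i, 0 < f i) :
    ∃ κ > 0, ∀ i, κ ≤ f i := by
  have h0 : 0 ≤ ∑ i, (f i)⁻¹ := Finset.sum_nonneg fun i _ => (inv_pos.2 (hf i)).le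
  refine ⟨(1 + ∑ i, (f i)⁻¹)⁻¹, by positivity, fun i => ?_⟩
  rw [inv_le_comm₀ (by positivity) (hf i)]
  have : (f i)⁻¹ ≤ ∑ i, (f i)⁻¹ :=
    Finset.single_le_sum (f := fun i => (f i)⁻¹) (fun i _ => (inv_pos.2 (hf i)).le)
      (Finset.mem_univ i)
  linarith

theorem exists_split {Z : Type*} [NormedAddCommGroup Z] [NormedSpace ℝ Z] [FiniteDimensional ℝ Z]
    (B : LinearMap.BilinForm ℝ Z) (hs : ∀ z w, B z w = B w z)
    (hB : ∀ z, (∀ w, B z w = 0) → z = 0) :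
    ∃ (p q : ℕ) (T : Z ≃L[ℝ] (Fin p → ℝ) × (Fin q → ℝ)) (κ : ℝ), 0 < κ ∧
      (∀ x, κ * sq x ≤ B (T.symm (x, 0)) (T.symm (x, 0))) ∧
      (∀ w, B (T.symm (0, w)) (T.symm (0, w)) ≤ -(κ * sq w)) := by
  classical
  have : Invertible (2 : ℝ) := invertibleOfNonzero two_ne_zero
  obtain ⟨v, hv⟩ := LinearMap.BilinForm.exists_orthogonal_basis (B := B) ⟨fun z w => hs z w⟩
  have hort : ∀ i j, i ≠ j → B (v i) (v j) = 0 := fun i j hij => hv hij
  have hne : ∀ i, B (v i) (v i) ≠ 0 := by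
    intro i hi
    refine v.ne_zero i (hB _ fun w => ?_)
    rw [← v.sum_repr w, map_sum]
    refine Finset.sum_eq_zero fun j _ => ?_
    rw [map_smul, smul_eq_mul]
    by_cases hij : i = j
    · rw [← hij, hi, mul_zero]
    · rw [hort i j hij, mul_zero]
  -- reindex
  let P : Fin (Module.finrank ℝ Z) → Prop := fun i => 0 < B (v i) (v i)
  let e := ((Equiv.sumCompl P).symm.trans
    (Equiv.sumCongr (Fintype.equivFin {i // P i}) (Fintype.equivFin {i // ¬ P i})))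
  let b := v.reindex e
  have hb : ∀ s, b s = v (e.symm s) := fun s => v.reindex_apply e s
  have hortb : ∀ s t, s ≠ t → B (b s) (b t) = 0 := fun s t hst => by
    rw [hb, hb]; exact hort _ _ fun h => hst (e.symm.injective h)
  have hinl : ∀ i, 0 < B (b (Sum.inl i)) (b (Sum.inl i)) := fun i => by
    rw [hb]
    have : e.symm (Sum.inl i) = ((Fintype.equivFin {i // P i}).symm i : {i // P i}).1 := rfl
    rw [this]
    exact ((Fintype.equivFin {i // P i}).symm i).2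
  have hinr : ∀ i, B (b (Sum.inr i)) (b (Sum.inr i)) < 0 := fun i => by
    rw [hb]
    have : e.symm (Sum.inr i) = ((Fintype.equivFin {i // ¬ P i}).symm i : {i // ¬ P i}).1 := rfl
    rw [this]
    exact lt_of_le_of_ne (not_lt.1 ((Fintype.equivFin {i // ¬ P i}).symm i).2) (hne _)
  have hdiag : ∀ c : (Fin (Fintype.card {i // P i}) ⊕ Fin (Fintype.card {i // ¬ P i})) → ℝ,
      B (∑ s, c s • b s) (∑ s, c s • b s) = ∑ s, c s ^ 2 * B (b s) (b s) := by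
    intro c
    have h1 : B (∑ s, c s • b s) = ∑ s, B (c s • b s) := map_sum _ _ _
    rw [h1, LinearMap.sum_apply]
    refine Finset.sum_congr rfl fun i _ => ?_
    rw [map_sum, Finset.sum_eq_single i]
    · rw [map_smul, map_smul, LinearMap.smul_apply, smul_eq_mul, smul_eq_mul]; ring
    · intro j _ hij
      rw [map_smul, map_smul, LinearMap.smul_apply, hortb i j (Ne.symm hij)]; simp
    · simp
  let T₀ : Z ≃ₗ[ℝ] (Fin (Fintype.card {i // P i}) → ℝ) × (Fin (Fintype.card {i // ¬ P i}) → ℝ) :=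
    b.equivFun.trans (LinearEquiv.sumArrowLequivProdArrow _ _ ℝ ℝ)
  have hT : ∀ x w, T₀.symm (x, w) = ∑ s, (Sum.elim x w s) • b s := by
    intro x w
    rw [LinearEquiv.symm_apply_eq]
    show (x, w) = LinearEquiv.sumArrowLequivProdArrow _ _ ℝ ℝ (b.equivFun _)
    rw [← b.equivFun_symm_apply, LinearEquiv.apply_symm_apply]
    rfl
  obtain ⟨κ, hκ, hκ'⟩ := exists_pos_le (fun s => |B (b s) (b s)|) fun s => by
    rw [abs_pos]
    rcases s with i | i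
    · exact (hinl i).ne'
    · exact (hinr i).ne
  refine ⟨_, _, T₀.toContinuousLinearEquiv, κ, hκ, fun x => ?_, fun w => ?_⟩
  · have h1 : (T₀.toContinuousLinearEquiv).symm (x, 0) = T₀.symm (x, 0) := rfl
    rw [h1, hT, hdiag, Fintype.sum_sum_type, sq, Finset.mul_sum]
    simp only [Sum.elim_inl, Sum.elim_inr, Pi.zero_apply]
    have h2 : ∑ i, κ * x i ^ 2 ≤ ∑ i, x i ^ 2 * B (b (Sum.inl i)) (b (Sum.inl i)) := by
      refine Finset.sum_le_sum fun i _ => ?_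
      have := hκ' (Sum.inl i)
      rw [abs_of_pos (hinl i)] at this
      nlinarith [sq_nonneg (x i)]
    simpa using h2
  · have h1 : (T₀.toContinuousLinearEquiv).symm (0, w) = T₀.symm (0, w) := rfl
    rw [h1, hT, hdiag, Fintype.sum_sum_type, sq, Finset.mul_sum]
    simp only [Sum.elim_inl, Sum.elim_inr, Pi.zero_apply]
    have h2 : ∑ i, w i ^ 2 * B (b (Sum.inr i)) (b (Sum.inr i)) ≤ -∑ i, κ * w i ^ 2 := by
      rw [← Finset.sum_neg_distrib]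
      refine Finset.sum_le_sum fun i _ => ?_
      have := hκ' (Sum.inr i)
      rw [abs_of_neg (hinr i)] at this
      nlinarith [sq_nonneg (w i)]
    simpa using h2

/-! ### Restriction to lines -/

section lines

variable {V : Type*} [NormedAddCommGroup V] [NormedSpace ℝ V]

theorem line_hasDerivAt {W : Type*} [NormedAddCommGroup W] [NormedSpace ℝ W] {F : V → W}
    {F' : V → V →L[ℝ] W} {a v : V} {t : ℝ} (h : HasFDerivAt F (F' (a + t • v)) (a + t • v)) :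
    HasDerivAt (fun t : ℝ => F (a + t • v)) (F' (a + t • v) v) t := by
  have h1 : HasDerivAt (fun t : ℝ => a + t • v) v t := by
    simpa using ((hasDerivAt_id t).smul_const v).const_add a
  exact h.comp_hasDerivAt t h1

theorem line_hasDerivAt2 {F' : V → V →L[ℝ] ℝ} {F'' : V → V →L[ℝ] V →L[ℝ] ℝ} {a v : V} {t : ℝ}
    (h : HasFDerivAt F' (F'' (a + t • v)) (a + t • v)) :
    HasDerivAt (fun t : ℝ => F' (a + t • v) v) (F'' (a + t • v) v v) t := by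
  have h1 := line_hasDerivAt h
  simpa using h1.clm_apply (hasDerivAt_const t v)

theorem sq_line {p : ℕ} (x h : Fin p → ℝ) (t : ℝ) :
    HasDerivAt (fun t : ℝ => sq (x + t • h)) (∑ i, 2 * (x i + t * h i) * h i) t := by
  unfold sq
  refine HasDerivAt.fun_sum fun i _ => ?_
  have h1 : HasDerivAt (fun t : ℝ => (x + t • h) i) (h i) t := by
    simpa using ((hasDerivAt_id t).mul_const (h i)).const_add (x i)
  have h2 := h1.pow 2
  refine h2.congr_deriv ?_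
  simp

theorem sq_line2 {p : ℕ} (x h : Fin p → ℝ) (t : ℝ) :
    HasDerivAt (fun t : ℝ => ∑ i, 2 * (x i + t * h i) * h i) (2 * sq h) t := by
  have : 2 * sq h = ∑ i, 2 * h i * h i := by
    rw [sq, Finset.mul_sum]; exact Finset.sum_congr rfl fun i _ => by ring
  rw [this]
  refine HasDerivAt.fun_sum fun i _ => ?_
  have h1 : HasDerivAt (fun t : ℝ => x i + t * h i) (h i) t := by
    simpa using ((hasDerivAt_id t).mul_const (h i)).const_add (x i)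
  exact (h1.const_mul 2).mul_const (h i)

/-- uniform convexity in the directions of `L` -/
theorem convex_dir {F : V → ℝ} {F' : V → V →L[ℝ] ℝ} {F'' : V → V →L[ℝ] V →L[ℝ] ℝ} {p : ℕ}
    (L : (Fin p → ℝ) →L[ℝ] V) (c : V) {r δ : ℝ} (hr : 0 ≤ r)
    (h1 : ∀ x ∈ closedBall (0 : Fin p → ℝ) r, HasFDerivAt F (F' (c + L x)) (c + L x))
    (h2 : ∀ x ∈ closedBall (0 : Fin p → ℝ) r, HasFDerivAt F' (F'' (c + L x)) (c + L x))
    (h3 : ∀ x ∈ closedBall (0 : Fin p → ℝ) r, ∀ h, 2 * δ * sq h ≤ F'' (c + L x) (L h) (L h)) :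
    ConvexOn ℝ (closedBall (0 : Fin p → ℝ) r) (fun x => F (c + L x) - δ * sq x) ∧
      ∀ x ∈ closedBall (0 : Fin p → ℝ) r, F c + F' c (L x) + δ * sq x ≤ F (c + L x) := by
  have key : ∀ x ∈ closedBall (0 : Fin p → ℝ) r, ∀ x' ∈ closedBall (0 : Fin p → ℝ) r,
      ∀ t ∈ Icc (0 : ℝ) 1,
      HasDerivAt (fun t : ℝ => F ((c + L x) + t • L (x' - x)) - δ * sq (x + t • (x' - x)))
        (F' ((c + L x) + t • L (x' - x)) (L (x' - x)) -
          δ * ∑ i, 2 * (x i + t * (x' - x) i) * (x' - x) i) t ∧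
      HasDerivAt (fun t : ℝ => F' ((c + L x) + t • L (x' - x)) (L (x' - x)) -
          δ * ∑ i, 2 * (x i + t * (x' - x) i) * (x' - x) i)
        (F'' ((c + L x) + t • L (x' - x)) (L (x' - x)) (L (x' - x)) - δ * (2 * sq (x' - x))) t ∧
      0 ≤ F'' ((c + L x) + t • L (x' - x)) (L (x' - x)) (L (x' - x)) - δ * (2 * sq (x' - x)) := by
    intro x hx x' hx' t ht
    have e : (c + L x) + t • L (x' - x) = c + L (x + t • (x' - x)) := by
      rw [map_add, map_smul, add_assoc]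
    have hm : x + t • (x' - x) ∈ closedBall (0 : Fin p → ℝ) r := by
      have := (convex_closedBall (0 : Fin p → ℝ) r).add_smul_sub_mem hx hx' ht
      exact this
    refine ⟨?_, ?_, ?_⟩
    · refine (line_hasDerivAt ?_).sub ((sq_line _ _ t).const_mul δ)
      rw [e]; exact h1 _ hm
    · refine (line_hasDerivAt2 ?_).sub ((sq_line2 _ _ t).const_mul δ)
      rw [e]; exact h2 _ hm
    · rw [e]
      have := h3 _ hm (x' - x)
      linarith
  refine ⟨⟨convex_closedBall _ _, fun x hx x' hx' a b ha hb hab => ?_⟩, fun x hx => ?_⟩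
  · have h := chord_le (fun t ht => (key x hx x' hx' t ht).1) (fun t ht => (key x hx x' hx' t ht).2.1)
      (fun t ht => (key x hx x' hx' t ht).2.2) (b := b) ⟨hb, by linarith⟩
    have e1 : a • x + b • x' = x + b • (x' - x) := by
      rw [show a = 1 - b by linarith, sub_smul, one_smul, smul_sub]; abel
    have e2 : c + L (a • x + b • x') = (c + L x) + b • L (x' - x) := by
      rw [e1, map_add, map_smul, add_assoc]
    have e3 : (c + L x) + (1 : ℝ) • L (x' - x) = c + L x' := by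
      rw [one_smul, map_sub]; abel
    have e4 : x + (1 : ℝ) • (x' - x) = x' := by rw [one_smul]; abel
    simp only [zero_smul, add_zero, e3, e4] at h
    simp only [smul_eq_mul]
    rw [e2, e1]
    rw [show a = 1 - b by linarith]
    exact h
  · have h0 : (0 : Fin p → ℝ) ∈ closedBall (0 : Fin p → ℝ) r := mem_closedBall_self hr
    have h := tangent_le (fun t ht => (key 0 h0 x hx t ht).1) (fun t ht => (key 0 h0 x hx t ht).2.1)
      (fun t ht => (key 0 h0 x hx t ht).2.2)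
    simp only [zero_smul, add_zero, sub_zero, map_zero, one_smul, zero_add, Pi.zero_apply,
      zero_mul, mul_zero] at h
    have e5 : sq (0 : Fin p → ℝ) = 0 := by simp [sq]
    rw [e5] at h
    simp at h
    linarith

end lines

/-- strict convexity from uniform convexity -/
theorem strictConvexOn_of_sq {p : ℕ} {s : Set (Fin p → ℝ)} {g : (Fin p → ℝ) → ℝ} {δ : ℝ}
    (hδ : 0 < δ) (h : ConvexOn ℝ s fun x => g x - δ * sq x) : StrictConvexOn ℝ s g := by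
  refine ⟨h.1, fun x hx x' hx' hne a b ha hb hab => ?_⟩
  have h1 := h.2 hx hx' ha.le hb.le hab
  have h2 : sq (a • x + b • x') = a * sq x + b * sq x' - a * b * sq (x - x') := by
    simp only [sq, Finset.mul_sum, ← Finset.sum_add_distrib, ← Finset.sum_sub_distrib]
    refine Finset.sum_congr rfl fun i _ => ?_
    simp only [Pi.add_apply, Pi.smul_apply, Pi.sub_apply, smul_eq_mul]
    rw [show a = 1 - b by linarith]; ring
  have h3 : 0 < sq (x - x') := by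
    have h4 : 0 < ‖x - x'‖ := norm_pos_iff.2 (sub_ne_zero.2 hne)
    have := norm_sq_le (x - x')
    nlinarith [sq_nonneg ‖x - x'‖, pow_pos h4 2]
  simp only [smul_eq_mul] at h1 ⊢
  rw [h2] at h1
  nlinarith [mul_pos (mul_pos ha hb) h3, mul_pos hδ (mul_pos (mul_pos ha hb) h3)]

section main

variable {Y Z : Type*} [NormedAddCommGroup Y] [NormedSpace ℝ Y] [NormedAddCommGroup Z]
  [NormedSpace ℝ Z]

/-- the box, from bounds on a ball -/
theorem box_aux {F : Y × Z → ℝ} {F' : Y × Z → (Y × Z) →L[ℝ] ℝ}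
    {F'' : Y × Z → (Y × Z) →L[ℝ] (Y × Z) →L[ℝ] ℝ} {p q : ℕ}
    (T : Z ≃L[ℝ] (Fin p → ℝ) × (Fin q → ℝ)) {κ N M R : ℝ} (hκ : 0 < κ) (hN0 : 0 ≤ N)
    (hM0 : 0 ≤ M) (hR0 : 0 < R) (hTn : ∀ u, ‖T.symm u‖ ≤ N * ‖u‖)
    (hd1 : ∀ u : Y × Z, ‖u‖ < R → HasFDerivAt F (F' u) u)
    (hd2 : ∀ u : Y × Z, ‖u‖ < R → HasFDerivAt F' (F'' u) u)
    (hMb : ∀ u : Y × Z, ‖u‖ < R → ‖F'' u‖ ≤ M)
    (hcrit : ∀ y : Y, ‖y‖ < R → ∀ z : Z, F' (y, 0) (0, z) = 0)
    (hposB : ∀ u : Y × Z, ‖u‖ < R → ∀ h : Fin p → ℝ,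
      κ / 2 * sq h ≤ F'' u (0, T.symm (h, 0)) (0, T.symm (h, 0)))
    (hnegB : ∀ u : Y × Z, ‖u‖ < R → ∀ h : Fin q → ℝ,
      F'' u (0, T.symm (0, h)) (0, T.symm (0, h)) ≤ -(κ / 2 * sq h)) :
    ∃ (C r : ℝ), 0 ≤ C ∧ 0 < r ∧
      (∀ y x w, ‖y‖ ≤ r → ‖x‖ ≤ r → ‖w‖ ≤ r → ‖((y, T.symm (x, w)) : Y × Z)‖ < R) ∧
      (∀ y w, ‖y‖ ≤ r → ‖w‖ ≤ r →
        ConvexOn ℝ (closedBall 0 r) (fun x => F (y, T.symm (x, w)) - κ / 8 * sq x)) ∧
      (∀ y x, ‖y‖ ≤ r → ‖x‖ ≤ r →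
        ConcaveOn ℝ (closedBall 0 r) (fun w => F (y, T.symm (x, w)) + κ / 8 * sq w)) ∧
      (∀ y x, ‖y‖ ≤ r → ‖x‖ ≤ r → F (y, 0) + κ / 8 * sq x ≤ F (y, T.symm (x, 0))) ∧
      (∀ y w, ‖y‖ ≤ r → ‖w‖ ≤ r → F (y, T.symm (0, w)) ≤ F (y, 0) - κ / 8 * sq w) ∧
      (∀ y x w, ‖y‖ ≤ r → ‖x‖ ≤ r → ‖w‖ ≤ r →
        F (y, 0) + κ / 8 * sq x - C * sq w ≤ F (y, T.symm (x, w))) := by
  have hTx : ∀ x : Fin p → ℝ, ‖((0 : Y), T.symm (x, 0))‖ ≤ N * ‖x‖ := fun x => by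
    rw [Prod.norm_def, norm_zero, max_eq_right (norm_nonneg _)]
    refine (hTn _).trans (by rw [Prod.norm_def, norm_zero, max_eq_left (norm_nonneg _)])
  have hTw : ∀ w : Fin q → ℝ, ‖((0 : Y), T.symm (0, w))‖ ≤ N * ‖w‖ := fun w => by
    rw [Prod.norm_def, norm_zero, max_eq_right (norm_nonneg _)]
    refine (hTn _).trans (by rw [Prod.norm_def, norm_zero, max_eq_right (norm_nonneg _)])
  have hquad : ∀ u : Y × Z, ‖u‖ < R → ∀ v : Y × Z, |F'' u v v| ≤ M * ‖v‖ ^ 2 := fun u hu v => by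
    calc |F'' u v v| ≤ ‖F'' u‖ * ‖v‖ * ‖v‖ := (F'' u).le_opNorm₂ v v
      _ ≤ M * ‖v‖ * ‖v‖ := by gcongr; exact hMb u hu
      _ = M * ‖v‖ ^ 2 := by ring
  -- the linear maps
  obtain ⟨Lx, hLx⟩ : ∃ L : (Fin p → ℝ) →L[ℝ] Y × Z, ∀ x, L x = (0, T.symm (x, 0)) :=
    ⟨(ContinuousLinearMap.inr ℝ Y Z).comp
    ((T.symm : (Fin p → ℝ) × (Fin q → ℝ) →L[ℝ] Z).comp (ContinuousLinearMap.inl ℝ _ _)),
    fun _ => rfl⟩
  obtain ⟨Lw, hLw⟩ : ∃ L : (Fin q → ℝ) →L[ℝ] Y × Z, ∀ w, L w = (0, T.symm (0, w)) :=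
    ⟨(ContinuousLinearMap.inr ℝ Y Z).comp
    ((T.symm : (Fin p → ℝ) × (Fin q → ℝ) →L[ℝ] Z).comp (ContinuousLinearMap.inr ℝ _ _)),
    fun _ => rfl⟩
  have hsum : ∀ y x w, ((y, T.symm (0, w)) : Y × Z) + Lx x = (y, T.symm (x, w)) := by
    intro y x w
    rw [hLx, Prod.mk_add_mk, add_zero, ← map_add, Prod.mk_add_mk, zero_add, add_zero]
  have hsum' : ∀ y x w, ((y, T.symm (x, 0)) : Y × Z) + Lw w = (y, T.symm (x, w)) := by
    intro y x w
    rw [hLw, Prod.mk_add_mk, add_zero, ← map_add, Prod.mk_add_mk, zero_add, add_zero]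
  obtain ⟨r, hr⟩ : ∃ r, r = min (R / 2) (R / (2 * (N + 1))) := ⟨_, rfl⟩
  have hr0 : 0 < r := hr ▸ lt_min (by positivity) (by positivity)
  have hrR : r < R := hr ▸ lt_of_le_of_lt (min_le_left _ _) (by linarith)
  have hin : ∀ y x w, ‖y‖ ≤ r → ‖x‖ ≤ r → ‖w‖ ≤ r → ‖((y, T.symm (x, w)) : Y × Z)‖ < R := by
    intro y x w hy hx hw
    rw [Prod.norm_def]
    refine max_lt (hy.trans_lt hrR) ?_
    have h1 : ‖((x, w) : (Fin p → ℝ) × (Fin q → ℝ))‖ ≤ r := by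
      rw [Prod.norm_def]; exact max_le hx hw
    have h2 : r * (2 * (N + 1)) ≤ R := by
      have := min_le_right (R / 2) (R / (2 * (N + 1)))
      rwa [← hr, le_div_iff₀ (by positivity)] at this
    have h3 : N * ‖((x, w) : (Fin p → ℝ) × (Fin q → ℝ))‖ ≤ N * r := by gcongr
    have h4 := hTn (x, w)
    nlinarith [mul_nonneg hN0 hr0.le]
  have z0 : ∀ n : ℕ, ‖(0 : Fin n → ℝ)‖ ≤ r := fun n => by rw [norm_zero]; exact hr0.le
  have T00 : T.symm (0, 0) = 0 := by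
    have : ((0, 0) : (Fin p → ℝ) × (Fin q → ℝ)) = 0 := rfl
    rw [this, map_zero]
  -- convexity in `x`
  have hcx : ∀ y w, ‖y‖ ≤ r → ‖w‖ ≤ r → ∀ δ, δ ≤ κ / 4 →
      ConvexOn ℝ (closedBall 0 r) (fun x => F (y, T.symm (x, w)) - δ * sq x) ∧
      ∀ x ∈ closedBall (0 : Fin p → ℝ) r,
        F (y, T.symm (0, w)) + F' (y, T.symm (0, w)) (Lx x) + δ * sq x ≤
          F (y, T.symm (x, w)) := by
    intro y w hy hw δ hδ
    have h := convex_dir (F := F) (F' := F') (F'' := F'') Lx (y, T.symm (0, w)) (r := r)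
      (δ := δ) hr0.le ?_ ?_ ?_
    · simpa only [hsum] using h
    · intro x hx
      rw [hsum]
      exact hd1 _ (hin y x w hy (mem_closedBall_zero_iff.1 hx) hw)
    · intro x hx
      rw [hsum]
      exact hd2 _ (hin y x w hy (mem_closedBall_zero_iff.1 hx) hw)
    · intro x hx h
      rw [hsum, hLx]
      have h1 := hposB _ (hin y x w hy (mem_closedBall_zero_iff.1 hx) hw) h
      nlinarith [sq_nonneg' h]
  -- concavity in `w`
  have hcw : ∀ y x, ‖y‖ ≤ r → ‖x‖ ≤ r → ∀ δ, δ ≤ κ / 4 →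
      ConvexOn ℝ (closedBall 0 r) (fun w => -F (y, T.symm (x, w)) - δ * sq w) ∧
      ∀ w ∈ closedBall (0 : Fin q → ℝ) r,
        -F (y, T.symm (x, 0)) + (-F' (y, T.symm (x, 0))) (Lw w) + δ * sq w ≤
          -F (y, T.symm (x, w)) := by
    intro y x hy hx δ hδ
    have h := convex_dir (F := fun u => -F u) (F' := fun u => -F' u) (F'' := fun u => -F'' u)
      Lw (y, T.symm (x, 0)) (r := r) (δ := δ) hr0.le ?_ ?_ ?_
    · simpa only [hsum'] using h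
    · intro w hw
      simp only [hsum']
      exact (hd1 _ (hin y x w hy hx (mem_closedBall_zero_iff.1 hw))).neg
    · intro w hw
      simp only [hsum']
      exact (hd2 _ (hin y x w hy hx (mem_closedBall_zero_iff.1 hw))).neg
    · intro w hw h
      have h1 := hnegB _ (hin y x w hy hx (mem_closedBall_zero_iff.1 hw)) h
      rw [← hsum' y x w, ← hLw] at h1
      show 2 * δ * sq h ≤ -(F'' ((y, T.symm (x, 0)) + Lw w) (Lw h) (Lw h))
      nlinarith [sq_nonneg' h]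
  -- the lower bound along `x = 0`
  have hlow : ∀ y w, ‖y‖ ≤ r → ‖w‖ ≤ r →
      F (y, 0) - M * N ^ 2 / 2 * sq w ≤ F (y, T.symm (0, w)) := by
    intro y w hy hw
    have h := convex_dir (F := F) (F' := F') (F'' := F'') Lw (y, T.symm (0, 0)) (r := r)
      (δ := -(M * N ^ 2 / 2)) hr0.le ?_ ?_ ?_
    · have h1 := h.2 w (mem_closedBall_zero_iff.2 hw)
      rw [hsum', T00, hLw] at h1
      have h2 : F' (y, 0) (0, T.symm (0, w)) = 0 := hcrit y (hy.trans_lt hrR) _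
      rw [h2] at h1
      linarith
    · intro w hw
      rw [hsum']
      exact hd1 _ (hin y 0 w hy (z0 p) (mem_closedBall_zero_iff.1 hw))
    · intro w hw
      rw [hsum']
      exact hd2 _ (hin y 0 w hy (z0 p) (mem_closedBall_zero_iff.1 hw))
    · intro w hw h
      rw [hsum', hLw]
      have h1 := (abs_le.1 (hquad _ (hin y 0 w hy (z0 p) (mem_closedBall_zero_iff.1 hw))
        (0, T.symm (0, h)))).1
      have h2 : M * ‖((0 : Y), T.symm (0, h))‖ ^ 2 ≤ M * N ^ 2 * sq h := by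
        calc M * ‖((0 : Y), T.symm (0, h))‖ ^ 2 ≤ M * (N * ‖h‖) ^ 2 := by
              gcongr; exact hTw h
          _ = M * N ^ 2 * ‖h‖ ^ 2 := by ring
          _ ≤ M * N ^ 2 * sq h := by gcongr; exact norm_sq_le h
      linarith
  -- the cross term
  have hcross : ∀ y x w, ‖y‖ ≤ r → ‖w‖ ≤ r →
      |F' (y, T.symm (0, w)) (Lx x)| ≤ M * N ^ 2 * ‖w‖ * ‖x‖ := by
    intro y x w hy hw
    have hyR : ‖y‖ < R := hy.trans_lt hrR
    have hy0 : ‖((y, 0) : Y × Z)‖ < R := by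
      rw [Prod.norm_def, norm_zero]; exact max_lt hyR hR0
    have h1 : ‖F' (y, T.symm (0, w)) - F' (y, 0)‖ ≤
        M * ‖((y, T.symm (0, w)) : Y × Z) - (y, 0)‖ :=
      (convex_ball (0 : Y × Z) R).norm_image_sub_le_of_norm_hasFDerivWithin_le
        (f := F') (f' := F'') (fun u hu => (hd2 u (mem_ball_zero_iff.1 hu)).hasFDerivWithinAt)
        (fun u hu => hMb u (mem_ball_zero_iff.1 hu)) (mem_ball_zero_iff.2 hy0)
        (mem_ball_zero_iff.2 (hin y 0 w hy (z0 p) hw))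
    have h2 : ((y, T.symm (0, w)) : Y × Z) - (y, 0) = (0, T.symm (0, w)) := by
      rw [Prod.mk_sub_mk, sub_self, sub_zero]
    rw [h2] at h1
    have h3 : F' (y, 0) (Lx x) = 0 := by rw [hLx]; exact hcrit y hyR _
    have h4 : ‖F' (y, T.symm (0, w)) - F' (y, 0)‖ ≤ M * (N * ‖w‖) :=
      h1.trans (mul_le_mul_of_nonneg_left (hTw w) hM0)
    have h5 : ‖Lx x‖ ≤ N * ‖x‖ := by rw [hLx]; exact hTx x
    have h6 : F' (y, T.symm (0, w)) (Lx x) = (F' (y, T.symm (0, w)) - F' (y, 0)) (Lx x) := by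
      have : (F' (y, T.symm (0, w)) - F' (y, 0)) (Lx x) =
        F' (y, T.symm (0, w)) (Lx x) - F' (y, 0) (Lx x) := rfl
      rw [this, h3, sub_zero]
    rw [h6, ← Real.norm_eq_abs]
    refine (ContinuousLinearMap.le_opNorm _ _).trans ?_
    refine (mul_le_mul h4 h5 (norm_nonneg _) (by positivity)).trans (le_of_eq (by ring))
  obtain ⟨A, hA⟩ : ∃ A, A = M * N ^ 2 := ⟨_, rfl⟩
  have hA0 : 0 ≤ A := hA ▸ by positivity
  refine ⟨A / 2 + 2 * A ^ 2 / κ, r, by positivity, hr0, hin,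
    fun y w hy hw => (hcx y w hy hw _ (by linarith)).1, fun y x hy hx => ?_,
    fun y x hy hx => ?_, fun y w hy hw => ?_, fun y x w hy hx hw => ?_⟩
  · have h := (hcw y x hy hx (κ / 8) (by linarith)).1
    refine ⟨h.1, fun a ha b hb s t hs ht hst => ?_⟩
    have h1 := h.2 ha hb hs ht hst
    simp only [smul_eq_mul] at h1 ⊢
    linarith
  · have h := (hcx y 0 hy (z0 q) (κ / 8) (by linarith)).2 x (mem_closedBall_zero_iff.2 hx)
    have h2 : F' (y, T.symm (0, 0)) (Lx x) = 0 := by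
      rw [T00, hLx]
      exact hcrit y (hy.trans_lt hrR) _
    rw [h2, T00] at h
    linarith
  · have h := (hcw y 0 hy (z0 p) (κ / 8) (by linarith)).2 w (mem_closedBall_zero_iff.2 hw)
    have h2 : (-F' (y, T.symm (0, 0))) (Lw w) = 0 := by
      rw [T00, hLw]
      show -(F' (y, 0) (0, T.symm (0, w))) = 0
      rw [hcrit y (hy.trans_lt hrR) _, neg_zero]
    rw [h2, T00] at h
    linarith
  · have h1 := (hcx y w hy hw (κ / 4) le_rfl).2 x (mem_closedBall_zero_iff.2 hx)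
    have h2 := (abs_le.1 (hcross y x w hy hw)).1
    have h3 := hlow y w hy hw
    rw [← hA] at h2 h3
    have h4 : A * ‖w‖ * ‖x‖ ≤ κ / 8 * ‖x‖ ^ 2 + 2 * A ^ 2 / κ * ‖w‖ ^ 2 := by
      have h5 : 0 ≤ (κ * ‖x‖ - 4 * (A * ‖w‖)) ^ 2 / (8 * κ) := by positivity
      have h6 : (κ * ‖x‖ - 4 * (A * ‖w‖)) ^ 2 / (8 * κ) =
          κ / 8 * ‖x‖ ^ 2 + 2 * A ^ 2 / κ * ‖w‖ ^ 2 - A * ‖w‖ * ‖x‖ := by
        field_simp
        ring
      linarith
    have h7 : κ / 8 * ‖x‖ ^ 2 ≤ κ / 8 * sq x :=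
      mul_le_mul_of_nonneg_left (norm_sq_le x) (by positivity)
    have h8 : 2 * A ^ 2 / κ * ‖w‖ ^ 2 ≤ 2 * A ^ 2 / κ * sq w :=
      mul_le_mul_of_nonneg_left (norm_sq_le w) (by positivity)
    have h9 : (A / 2 + 2 * A ^ 2 / κ) * sq w = A / 2 * sq w + 2 * A ^ 2 / κ * sq w := by ring
    rw [h9]
    linarith

theorem exists_hess_split [FiniteDimensional ℝ Z] (Q : (Y × Z) →L[ℝ] (Y × Z) →L[ℝ] ℝ)
    (hs : ∀ v w, Q v w = Q w v) (hnd : ∀ z : Z, (∀ w : Z, Q (0, z) (0, w) = 0) → z = 0) :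
    ∃ (p q : ℕ) (T : Z ≃L[ℝ] (Fin p → ℝ) × (Fin q → ℝ)) (κ : ℝ), 0 < κ ∧
      (∀ x, κ * sq x ≤ Q (0, T.symm (x, 0)) (0, T.symm (x, 0))) ∧
      (∀ w, Q (0, T.symm (0, w)) (0, T.symm (0, w)) ≤ -(κ * sq w)) := by
  obtain ⟨B, hB⟩ : ∃ B : LinearMap.BilinForm ℝ Z, ∀ z w, B z w = Q (0, z) (0, w) :=
    ⟨LinearMap.mk₂ ℝ (fun z w => Q (0, z) (0, w))
    (fun z z' w => by
      rw [show ((0 : Y), z + z') = (0, z) + (0, z') by simp, map_add]; rfl)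
    (fun c z w => by
      rw [show ((0 : Y), c • z) = c • ((0 : Y), z) by simp, map_smul]; rfl)
    (fun z w w' => by
      rw [show ((0 : Y), w + w') = (0, w) + (0, w') by simp, map_add])
    (fun c z w => by
      rw [show ((0 : Y), c • w) = c • ((0 : Y), w) by simp, map_smul]), fun _ _ => rfl⟩
  obtain ⟨p, q, T, κ, hκ, hpos, hneg⟩ := exists_split B
    (fun z w => by rw [hB, hB]; exact hs _ _) (fun z hz => hnd z fun w => by rw [← hB]; exact hz w)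
  exact ⟨p, q, T, κ, hκ, fun x => (hpos x).trans_eq (hB _ _), fun w => (hB _ _).symm.trans_le
    (hneg w)⟩

theorem exists_good_ball {V : Type*} [NormedAddCommGroup V] [NormedSpace ℝ V] {F : V → ℝ}
    (hF : ContDiffAt ℝ 2 F 0) {ε : ℝ} (hε0 : 0 < ε) :
    ∃ R > 0, ∀ u : V, ‖u‖ < R → ContDiffAt ℝ 2 F u ∧ HasFDerivAt F (fderiv ℝ F u) u ∧
      HasFDerivAt (fderiv ℝ F) (fderiv ℝ (fderiv ℝ F) u) u ∧
      ‖fderiv ℝ (fderiv ℝ F) u - fderiv ℝ (fderiv ℝ F) 0‖ < ε := by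
  have h1 : ContDiffAt ℝ 1 (fderiv ℝ F) 0 := hF.fderiv_right (m := 1) (by norm_num)
  have h2 : ContDiffAt ℝ 0 (fderiv ℝ (fderiv ℝ F)) 0 := h1.fderiv_right (m := 0) (by norm_num)
  have hev2 : ∀ᶠ u in 𝓝 (0 : V), ‖fderiv ℝ (fderiv ℝ F) u - fderiv ℝ (fderiv ℝ F) 0‖ < ε :=
    (tendsto_iff_norm_sub_tendsto_zero.1 h2.continuousAt.tendsto).eventually_lt_const hε0
  have hev3 : ∀ᶠ u in 𝓝 (0 : V), ContDiffAt ℝ 2 F u := hF.eventually (by simp)
  obtain ⟨R, hR, hball⟩ := Metric.eventually_nhds_iff.1 (hev3.and hev2)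
  refine ⟨R, hR, fun u hu => ?_⟩
  have h := hball (y := u) (by rw [dist_zero_right]; exact hu)
  have h3 : ContDiffAt ℝ 1 (fderiv ℝ F) u := h.1.fderiv_right (m := 1) (by norm_num)
  exact ⟨h.1, (h.1.differentiableAt (by norm_num)).hasFDerivAt,
    (h3.differentiableAt (by norm_num)).hasFDerivAt, h.2⟩

theorem box_aux2 {F : Y × Z → ℝ} {F' : Y × Z → (Y × Z) →L[ℝ] ℝ}
    {F'' : Y × Z → (Y × Z) →L[ℝ] (Y × Z) →L[ℝ] ℝ} {p q : ℕ}
    (T : Z ≃L[ℝ] (Fin p → ℝ) × (Fin q → ℝ)) {κ N ε R : ℝ} (hκ : 0 < κ) (hN0 : 0 ≤ N)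
    (hε0 : 0 < ε) (hεN : ε * N ^ 2 ≤ κ / 2) (hR0 : 0 < R) (hTn : ∀ u, ‖T.symm u‖ ≤ N * ‖u‖)
    (hd1 : ∀ u : Y × Z, ‖u‖ < R → HasFDerivAt F (F' u) u)
    (hd2 : ∀ u : Y × Z, ‖u‖ < R → HasFDerivAt F' (F'' u) u)
    (hgood : ∀ u : Y × Z, ‖u‖ < R → ‖F'' u - F'' 0‖ < ε)
    (hcrit : ∀ y : Y, ‖y‖ < R → ∀ z : Z, F' (y, 0) (0, z) = 0)
    (hpos : ∀ x, κ * sq x ≤ F'' 0 (0, T.symm (x, 0)) (0, T.symm (x, 0)))
    (hneg : ∀ w, F'' 0 (0, T.symm (0, w)) (0, T.symm (0, w)) ≤ -(κ * sq w)) :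
    ∃ (C r : ℝ), 0 ≤ C ∧ 0 < r ∧
      (∀ y x w, ‖y‖ ≤ r → ‖x‖ ≤ r → ‖w‖ ≤ r → ‖((y, T.symm (x, w)) : Y × Z)‖ < R) ∧
      (∀ y w, ‖y‖ ≤ r → ‖w‖ ≤ r →
        ConvexOn ℝ (closedBall 0 r) (fun x => F (y, T.symm (x, w)) - κ / 8 * sq x)) ∧
      (∀ y x, ‖y‖ ≤ r → ‖x‖ ≤ r →
        ConcaveOn ℝ (closedBall 0 r) (fun w => F (y, T.symm (x, w)) + κ / 8 * sq w)) ∧
      (∀ y x, ‖y‖ ≤ r → ‖x‖ ≤ r → F (y, 0) + κ / 8 * sq x ≤ F (y, T.symm (x, 0))) ∧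
      (∀ y w, ‖y‖ ≤ r → ‖w‖ ≤ r → F (y, T.symm (0, w)) ≤ F (y, 0) - κ / 8 * sq w) ∧
      (∀ y x w, ‖y‖ ≤ r → ‖x‖ ≤ r → ‖w‖ ≤ r →
        F (y, 0) + κ / 8 * sq x - C * sq w ≤ F (y, T.symm (x, w))) := by
  have hTx : ∀ x : Fin p → ℝ, ‖((0 : Y), T.symm (x, 0))‖ ≤ N * ‖x‖ := fun x => by
    rw [Prod.norm_def, norm_zero, max_eq_right (norm_nonneg _)]
    refine (hTn _).trans (by rw [Prod.norm_def, norm_zero, max_eq_left (norm_nonneg _)])
  have hTw : ∀ w : Fin q → ℝ, ‖((0 : Y), T.symm (0, w))‖ ≤ N * ‖w‖ := fun w => by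
    rw [Prod.norm_def, norm_zero, max_eq_right (norm_nonneg _)]
    refine (hTn _).trans (by rw [Prod.norm_def, norm_zero, max_eq_right (norm_nonneg _)])
  have hMb : ∀ u : Y × Z, ‖u‖ < R → ‖F'' u‖ ≤ ‖F'' 0‖ + ε := fun u hu => by
    have h1 := norm_sub_norm_le (F'' u) (F'' 0)
    have h2 := hgood u hu
    linarith
  have hdiff : ∀ u : Y × Z, ‖u‖ < R → ∀ v : Y × Z, |F'' u v v - F'' 0 v v| ≤ ε * ‖v‖ ^ 2 :=
    fun u hu v => by
    calc |F'' u v v - F'' 0 v v| = |(F'' u - F'' 0) v v| := rfl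
      _ ≤ ‖F'' u - F'' 0‖ * ‖v‖ * ‖v‖ := (F'' u - F'' 0).le_opNorm₂ v v
      _ ≤ ε * ‖v‖ * ‖v‖ := by gcongr; exact (hgood u hu).le
      _ = ε * ‖v‖ ^ 2 := by ring
  -- definiteness on the ball
  have hposB : ∀ u : Y × Z, ‖u‖ < R → ∀ h : Fin p → ℝ,
      κ / 2 * sq h ≤ F'' u (0, T.symm (h, 0)) (0, T.symm (h, 0)) := fun u hu h => by
    have h1 := hpos h
    have h2 := abs_le.1 (hdiff u hu (0, T.symm (h, 0)))
    have h3 : ε * ‖((0 : Y), T.symm (h, 0))‖ ^ 2 ≤ κ / 2 * sq h := by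
      calc ε * ‖((0 : Y), T.symm (h, 0))‖ ^ 2 ≤ ε * (N * ‖h‖) ^ 2 := by
            gcongr; exact hTx h
        _ = ε * N ^ 2 * ‖h‖ ^ 2 := by ring
        _ ≤ κ / 2 * sq h := mul_le_mul hεN (norm_sq_le h) (by positivity) (by positivity)
    linarith [h2.1]
  have hnegB : ∀ u : Y × Z, ‖u‖ < R → ∀ h : Fin q → ℝ,
      F'' u (0, T.symm (0, h)) (0, T.symm (0, h)) ≤ -(κ / 2 * sq h) := fun u hu h => by
    have h1 := hneg h
    have h2 := abs_le.1 (hdiff u hu (0, T.symm (0, h)))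
    have h3 : ε * ‖((0 : Y), T.symm (0, h))‖ ^ 2 ≤ κ / 2 * sq h := by
      calc ε * ‖((0 : Y), T.symm (0, h))‖ ^ 2 ≤ ε * (N * ‖h‖) ^ 2 := by
            gcongr; exact hTw h
        _ = ε * N ^ 2 * ‖h‖ ^ 2 := by ring
        _ ≤ κ / 2 * sq h := mul_le_mul hεN (norm_sq_le h) (by positivity) (by positivity)
    linarith [h2.2]
  exact box_aux T hκ hN0 (by positivity) hR0 hTn hd1 hd2 hMb hcrit hposB hnegB

variable [FiniteDimensional ℝ Z]

/-- **Calculus input of the local lemma.**  `F (y, z)` of class `C^2` near `0`, critical in `z`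
along `z = 0`, with nondegenerate normal Hessian at `0`: in suitable linear coordinates
`z = (x, w)` it is uniformly convex in `x` and uniformly concave in `w` on a box. -/
theorem exists_box_data (F : Y × Z → ℝ) (hF : ContDiffAt ℝ 2 F 0)
    (h0 : ∀ᶠ y in 𝓝 (0 : Y), ∀ z : Z, fderiv ℝ F (y, 0) (0, z) = 0)
    (hnd : ∀ z : Z, (∀ w : Z, fderiv ℝ (fderiv ℝ F) 0 (0, z) (0, w) = 0) → z = 0) :
    ∃ (p q : ℕ) (T : Z ≃L[ℝ] (Fin p → ℝ) × (Fin q → ℝ)) (δ C r : ℝ), 0 < δ ∧ 0 ≤ C ∧ 0 < r ∧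
      (∀ y x w, ‖y‖ ≤ r → ‖x‖ ≤ r → ‖w‖ ≤ r → ContDiffAt ℝ 2 F (y, T.symm (x, w))) ∧
      (∀ y w, ‖y‖ ≤ r → ‖w‖ ≤ r →
        ConvexOn ℝ (closedBall 0 r) (fun x => F (y, T.symm (x, w)) - δ * sq x)) ∧
      (∀ y w, ‖y‖ ≤ r → ‖w‖ ≤ r →
        StrictConvexOn ℝ (closedBall 0 r) (fun x => F (y, T.symm (x, w)))) ∧
      (∀ y x, ‖y‖ ≤ r → ‖x‖ ≤ r →
        ConcaveOn ℝ (closedBall 0 r) (fun w => F (y, T.symm (x, w)) + δ * sq w)) ∧
      (∀ y x, ‖y‖ ≤ r → ‖x‖ ≤ r → F (y, 0) + δ * sq x ≤ F (y, T.symm (x, 0))) ∧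
      (∀ y w, ‖y‖ ≤ r → ‖w‖ ≤ r → F (y, T.symm (0, w)) ≤ F (y, 0) - δ * sq w) ∧
      (∀ y x w, ‖y‖ ≤ r → ‖x‖ ≤ r → ‖w‖ ≤ r →
        F (y, 0) + δ * sq x - C * sq w ≤ F (y, T.symm (x, w))) := by
  have hs2 : ∀ v w, fderiv ℝ (fderiv ℝ F) 0 v w = fderiv ℝ (fderiv ℝ F) 0 w v := fun v w =>
    (hF.isSymmSndFDerivAt (by simp)).eq _ _
  obtain ⟨p, q, T, κ, hκ, hpos, hneg⟩ := exists_hess_split _ hs2 hnd
  obtain ⟨N, hN0, hTn⟩ : ∃ N : ℝ, 0 ≤ N ∧ ∀ u, ‖T.symm u‖ ≤ N * ‖u‖ :=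
    ⟨‖(T.symm : (Fin p → ℝ) × (Fin q → ℝ) →L[ℝ] Z)‖, norm_nonneg _,
      (T.symm : (Fin p → ℝ) × (Fin q → ℝ) →L[ℝ] Z).le_opNorm⟩
  obtain ⟨ε, hε0, hεN⟩ : ∃ ε : ℝ, 0 < ε ∧ ε * N ^ 2 ≤ κ / 2 := by
    refine ⟨κ / (2 * (N ^ 2 + 1)), by positivity, ?_⟩
    rw [div_mul_eq_mul_div, div_le_div_iff₀ (by positivity) (by norm_num)]
    nlinarith [sq_nonneg N, hκ]
  obtain ⟨R₁, hR₁, hball⟩ := exists_good_ball hF hε0
  obtain ⟨R₂, hR₂, hball2⟩ := Metric.eventually_nhds_iff.1 h0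
  obtain ⟨R, hR⟩ : ∃ R, R = min R₁ R₂ := ⟨_, rfl⟩
  have hR0 : 0 < R := hR ▸ lt_min hR₁ hR₂
  have hu1 : ∀ u : Y × Z, ‖u‖ < R → ‖u‖ < R₁ := fun u hu => (hR ▸ hu).trans_le (min_le_left _ _)
  obtain ⟨C, r, hC, hr, h1, h2, h3, h4, h5, h6⟩ := box_aux2 T hκ hN0 hε0 hεN hR0 hTn
    (fun u hu => (hball u (hu1 u hu)).2.1) (fun u hu => (hball u (hu1 u hu)).2.2.1)
    (fun u hu => (hball u (hu1 u hu)).2.2.2)
    (fun y hy => hball2 (y := y) (by
      rw [dist_zero_right]; exact (hR ▸ hy).trans_le (min_le_right _ _))) hpos hneg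
  exact ⟨p, q, T, κ / 8, C, r, by positivity, hC, hr,
    fun y x w hy hx hw => (hball _ (hu1 _ (h1 y x w hy hx hw))).1, h2,
    fun y w hy hw => strictConvexOn_of_sq (by positivity) (h2 y w hy hw), h3, h4, h5, h6⟩

end main

end Vale.Agent.P216.H391
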