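import Mathlib.LinearAlgebra.FiniteDimensional.Basic
import Mathlib.LinearAlgebra.FiniteDimensional.Lemmas
import Mathlib.Dynamics.PeriodicPts.Lemmas
import Mathlib.Data.Real.Basic

/-!
P216, block [LOCAL] (L3): the periodic solutions of a periodic second order linear recurrence.
-/

namespace Vale.Agent.P216.H391

open Function

/-- For an endomorphism `T` of a finite-dimensional space there is `D > 0` such that every vector
fixed by `T^m` (`m > 0`) is fixed by `T^(gcd m D)`. -/
theorem exists_common_period {K V : Type*} [Field K] [AddCommGroup V] [Module K V]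
    [FiniteDimensional K V] (T : V →ₗ[K] V) :
    ∃ D : ℕ, 0 < D ∧ ∀ m : ℕ, 0 < m → ∀ v : V, T^[m] v = v → T^[m.gcd D] v = v := by
  classical
  -- the space of periodic vectors
  let W : Submodule K V :=
    { carrier := {v | ∃ m : ℕ, 0 < m ∧ T^[m] v = v}
      zero_mem' := ⟨1, one_pos, by simp⟩
      add_mem' := by
        rintro v w ⟨m, hm, hv⟩ ⟨n, hn, hw⟩
        refine ⟨m * n, Nat.mul_pos hm hn, ?_⟩
        have h1 : T^[m * n] v = v := (show IsPeriodicPt T m v from hv).mul_const n
        have h2 : T^[m * n] w = w := (show IsPeriodicPt T n w from hw).const_mul m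
        rw [← Module.End.pow_apply, map_add, Module.End.pow_apply, Module.End.pow_apply, h1, h2]
      smul_mem' := by
        rintro c v ⟨m, hm, hv⟩
        refine ⟨m, hm, ?_⟩
        rw [← Module.End.pow_apply, map_smul, Module.End.pow_apply, hv] }
  have key : ∀ s : Finset V, (∀ v ∈ s, v ∈ W) → ∃ D : ℕ, 0 < D ∧ ∀ v ∈ s, T^[D] v = v := by
    intro s
    induction s using Finset.induction_on with
    | empty => exact fun _ => ⟨1, one_pos, fun v hv => absurd hv (Finset.notMem_empty v)⟩
    | insert a s ha ih =>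
      intro h
      obtain ⟨D, hD, h1⟩ := ih fun v hv => h v (Finset.mem_insert_of_mem hv)
      obtain ⟨m, hm, h2⟩ := h a (Finset.mem_insert_self a s)
      refine ⟨m * D, Nat.mul_pos hm hD, fun v hv => ?_⟩
      rcases Finset.mem_insert.1 hv with rfl | hv
      · exact (show IsPeriodicPt T m v from h2).mul_const D
      · exact (show IsPeriodicPt T D v from h1 v hv).const_mul m
  obtain ⟨s, hs⟩ := (IsNoetherian.noetherian W : W.FG)
  obtain ⟨D, hD, h1⟩ := key s fun v hv => hs ▸ Submodule.subset_span hv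
  refine ⟨D, hD, fun m hm v hv => ?_⟩
  have hvW : v ∈ W := ⟨m, hm, hv⟩
  have h2 : ∀ w ∈ W, T^[D] w = w := by
    intro w hw
    rw [← hs] at hw
    refine Submodule.span_induction (p := fun w _ => T^[D] w = w) (fun x hx => h1 x hx) ?_ ?_ ?_ hw
    · rw [← Module.End.pow_apply, map_zero]
    · intro x y _ _ hx hy
      rw [← Module.End.pow_apply, map_add, Module.End.pow_apply, Module.End.pow_apply, hx, hy]
    · intro a x _ hx
      rw [← Module.End.pow_apply, map_smul, Module.End.pow_apply, hx]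
  exact (show IsPeriodicPt T m v from hv).gcd (show IsPeriodicPt T D v from h2 v hvW)

section recurrence

variable {K E F : Type*} [Field K] [AddCommGroup E] [Module K E] [AddCommGroup F] [Module K F]

/-- The solutions of the three-term recurrence `L i (ξ (i-1), ξ i, ξ (i+1)) = 0`. -/
def solutions (L : ℤ → (E × E × E) →ₗ[K] F) : Submodule K (ℤ → E) where
  carrier := {ξ | ∀ i, L i (ξ (i - 1), ξ i, ξ (i + 1)) = 0}
  zero_mem' := fun i => (L i).map_zero
  add_mem' := by
    intro ξ η hξ hη i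
    have : ((ξ + η) (i - 1), (ξ + η) i, (ξ + η) (i + 1)) =
        (ξ (i - 1), ξ i, ξ (i + 1)) + (η (i - 1), η i, η (i + 1)) := rfl
    rw [this, map_add, hξ i, hη i, add_zero]
  smul_mem' := by
    intro c ξ hξ i
    have : ((c • ξ) (i - 1), (c • ξ) i, (c • ξ) (i + 1)) =
        c • (ξ (i - 1), ξ i, ξ (i + 1)) := rfl
    rw [this, map_smul, hξ i, smul_zero]

variable {L : ℤ → (E × E × E) →ₗ[K] F}

/-- A solution vanishing at `0` and `1` vanishes. -/
theorem eq_zero_of_solution (hr : ∀ i z, L i (0, 0, z) = 0 → z = 0)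
    (hl : ∀ i x, L i (x, 0, 0) = 0 → x = 0) {ξ : ℤ → E} (hξ : ξ ∈ solutions L)
    (h0 : ξ 0 = 0) (h1 : ξ 1 = 0) : ξ = 0 := by
  have hpos : ∀ n : ℕ, ξ n = 0 ∧ ξ (n + 1) = 0 := by
    intro n
    induction n with
    | zero => exact ⟨by simpa using h0, by simpa using h1⟩
    | succ n ih =>
      have h := hξ (n + 1)
      rw [show ((n : ℤ) + 1 - 1) = n by ring, ih.1, ih.2] at h
      exact ⟨by exact_mod_cast ih.2, by exact_mod_cast hr _ _ h⟩
  have hneg : ∀ n : ℕ, ξ (-n) = 0 ∧ ξ (1 - n) = 0 := by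
    intro n
    induction n with
    | zero => exact ⟨by simpa using h0, by simpa using h1⟩
    | succ n ih =>
      have e : (1 : ℤ) - (n + 1 : ℕ) = -n := by push_cast; ring
      refine ⟨?_, by rw [e]; exact ih.1⟩
      have h := hξ (-n)
      rw [show (-(n : ℤ) + 1) = 1 - n by ring, ih.1, ih.2] at h
      have := hl _ _ h
      rw [show (-((n + 1 : ℕ) : ℤ)) = -n - 1 by push_cast; ring]
      exact this
  funext i
  rcases Int.le_total 0 i with hi | hi
  · obtain ⟨n, rfl⟩ := Int.eq_ofNat_of_zero_le hi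
    exact (hpos n).1
  · obtain ⟨n, hn⟩ := Int.eq_ofNat_of_zero_le (neg_nonneg.2 hi)
    have : i = -n := by rw [← neg_neg i, hn]
    rw [this]
    exact (hneg n).1

/-- **(L3)** the periodic solutions of a `k₀`-periodic three-term recurrence: there is `D > 0` such
that every solution of period `m * k₀` has period `gcd m D * k₀`. -/
theorem exists_period_bound [FiniteDimensional K E] (hr : ∀ i z, L i (0, 0, z) = 0 → z = 0)
    (hl : ∀ i x, L i (x, 0, 0) = 0 → x = 0) (k₀ : ℕ) (hper : ∀ i, L (i + k₀) = L i) :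
    ∃ D : ℕ, 0 < D ∧ ∀ m : ℕ, 0 < m → ∀ ξ : ℤ → E,
      (∀ i, L i (ξ (i - 1), ξ i, ξ (i + 1)) = 0) → (∀ i, ξ (i + m * k₀) = ξ i) →
        ∀ i, ξ (i + (m.gcd D) * k₀) = ξ i := by
  let ev : solutions L →ₗ[K] E × E :=
    { toFun := fun ξ => (ξ.1 0, ξ.1 1)
      map_add' := fun _ _ => rfl
      map_smul' := fun _ _ => rfl }
  have hinj : Function.Injective ev := by
    rw [← LinearMap.ker_eq_bot, LinearMap.ker_eq_bot']
    intro ξ h
    have h' : (ξ.1 0, ξ.1 1) = ((0, 0) : E × E) := h
    rw [Prod.mk.injEq] at h'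
    exact Subtype.ext (eq_zero_of_solution hr hl ξ.2 h'.1 h'.2)
  have : FiniteDimensional K (solutions L) := Module.Finite.of_injective ev hinj
  let T : solutions L →ₗ[K] solutions L :=
    { toFun := fun ξ => ⟨fun i => ξ.1 (i + k₀), fun i => by
        have h := ξ.2 (i + k₀)
        rw [hper] at h
        show L i (ξ.1 (i - 1 + k₀), ξ.1 (i + k₀), ξ.1 (i + 1 + k₀)) = 0
        rw [show i + 1 + (k₀ : ℤ) = i + k₀ + 1 by ring,
          show i - 1 + (k₀ : ℤ) = i + k₀ - 1 by ring]
        exact h⟩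
      map_add' := fun _ _ => rfl
      map_smul' := fun _ _ => rfl }
  have hT : ∀ (n : ℕ) (ξ : solutions L) (i : ℤ), (T^[n] ξ).1 i = ξ.1 (i + n * k₀) := by
    intro n
    induction n with
    | zero => intro ξ i; simp
    | succ n ih =>
      intro ξ i
      rw [Function.iterate_succ_apply, ih]
      show ξ.1 (i + n * k₀ + k₀) = _
      rw [show i + n * (k₀ : ℤ) + k₀ = i + (n + 1 : ℕ) * k₀ by push_cast; ring]
  obtain ⟨D, hD, h⟩ := exists_common_period T
  refine ⟨D, hD, fun m hm ξ hξ hp i => ?_⟩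
  have h1 := h m hm ⟨ξ, hξ⟩ (Subtype.ext (funext fun i => by rw [hT]; exact hp i))
  have h2 := hT (m.gcd D) ⟨ξ, hξ⟩ i
  rw [h1] at h2
  exact h2.symm

end recurrence

end Vale.Agent.P216.H391
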